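import Vale.Agent.P261Z.PC.Inf

/-! # P261, block P: the bookkeeping of the deperfection -/

namespace P261.PC

universe u

theorem room {q ω Q K : ℝ} (hq : 2 ≤ q) (hω : 1 ≤ ω) (hQ : 0 ≤ Q) (hK : 0 ≤ K) (c₀ : ℕ) :
    ∃ c, c₀ ≤ c ∧ ∀ n b, b ≤ (q * ω) ^ n → Q * (b + K * ω ^ (n + c)) ≤ (q * ω) ^ (n + c) := by
  obtain ⟨c, hc⟩ := pow_unbounded_of_one_lt (Q * (1 + K)) (one_lt_two.trans_le hq)
  have h1 : 1 ≤ q := by linarith
  refine ⟨c + c₀, by omega, fun n b hb => ?_⟩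
  have h2 := pow_le_pow_right₀ h1 (Nat.le_add_right c c₀)
  have h3 := pow_le_pow_right₀ hω (Nat.le_add_right n (c + c₀))
  have h4 := one_le_pow₀ (n := n) h1
  have h5 : 0 ≤ ω ^ (n + (c + c₀)) := by positivity
  rw [mul_pow] at hb ⊢
  rw [pow_add q n]
  have h6 : b + K * ω ^ (n + (c + c₀)) ≤ (1 + K) * (q ^ n * ω ^ (n + (c + c₀))) := by
    nlinarith [mul_le_mul_of_nonneg_left h3 (zero_le_one.trans h4),
      mul_le_mul_of_nonneg_right h4 (mul_nonneg hK h5)]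
  nlinarith [mul_le_mul_of_nonneg_left h6 hQ, mul_le_mul_of_nonneg_right (hc.le.trans h2)
    (mul_nonneg (zero_le_one.trans h4) h5)]

theorem stage {Q β κ : ℝ} (hQ : 1 ≤ Q) (hκ : 0 ≤ κ) (i : ℕ) :
    Q * (Q ^ i * (β + i * κ) + κ) ≤ Q ^ (i + 1) * (β + (i + 1 : ℕ) * κ) := by
  rw [pow_succ', mul_assoc]
  push_cast
  refine mul_le_mul_of_nonneg_left ?_ (zero_le_one.trans hQ)
  nlinarith [mul_le_mul_of_nonneg_right (one_le_pow₀ (n := i) hQ) hκ]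

variable {p : ℕ} {X : ℕ → Type u} [∀ t, AddCommGroup (X t)] [∀ t, Module (ZMod p) (X t)]

/-- A boundary from the perfect level is a boundary from the level `a.1`. -/
def Base.RI (B : Base p X) (ω : ℝ) (t : ℕ) (a : ℕ × ℝ) : Prop :=
  ∀ n j c b0, j ≤ n → 0 ≤ c → c ≤ (B.q * ω) ^ n → ∀ y ∈ B.NI j c t, B.d t y ∈ B.N j b0 (t + 1) →
    ∃ y' ∈ B.N j (B.q ^ a.1 * (c + a.2 * ω ^ n)) t, B.d t y' = (B.fr _ ^ a.1) (B.d t y)

theorem Base.RI_mono (B : Base p X) {ω : ℝ} (hω : 0 ≤ ω) (t : ℕ) : Monotone (B.RI ω t) := by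
  rintro ⟨r, K⟩ ⟨r', K'⟩ ⟨h1, h2⟩ h n j c b0 hj hc hc' y hy hd
  obtain ⟨y', k1, k2⟩ := h n j c b0 hj hc hc' y hy hd
  obtain ⟨m, rfl⟩ := Nat.exists_eq_add_of_le' (show r ≤ r' from h1)
  refine ⟨_, B.mono le_rfl ?_ t (B.pow_N m k1), by rw [← B.pow_d, k2, B.pow_pow]⟩
  have := B.q_pos
  rw [← mul_assoc, ← pow_add]
  gcongr

theorem Base.rel_pow (B : Base p X) (n : ℕ) {A j b b' b'' t} {x : X t}
    (h : x ∈ B.NA A j b t ⊔ Bd B.d (B.N j b') t) (h1 : B.q ^ n * b ≤ b'') (h2 : B.q ^ n * b' ≤ b'') :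
    (B.fr t ^ n) x ∈ B.NA A j b'' t ⊔ Bd B.d (B.N j b'') t := by
  obtain ⟨u, hu, v, hv, rfl⟩ := Submodule.mem_sup.1 h
  rw [map_add]
  refine Submodule.add_mem_sup (B.NA_mono le_rfl h1 t (B.pow_NA n hu)) ?_
  cases t with
  | zero =>
    obtain rfl : v = 0 := hv
    exact map_zero _
  | succ t =>
    obtain ⟨z, hz, rfl⟩ := hv
    exact ⟨_, B.mono le_rfl h2 t (B.pow_N n hz), (B.pow_d n t z).symm⟩

namespace Core

variable {G : GF p} {Γ : Type} [Group Γ] (B : Core p X G Γ) {ω : ℝ}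

theorem hb (j : ℕ) : HB B.d B.fr (fun e t => B.ρ t (B.a e)) (B.N j) B.q (B.w ^ (j + 1)) where
  dd := B.dd
  inj0 := B.inj0
  fr_d := B.fr_d
  ae_fr := fun _ t => B.ρ_fr t _
  ae_N := fun _ b t => B.ρ_N j b t _
  mono := fun _ _ => B.mono le_rfl
  N_d := B.N_d j
  N_fr := B.N_fr j
  q0 := B.q_pos.le
  D0 := (B.D_pos j).le

theorem D_le (hω : B.w ≤ ω) (n : ℕ) : B.w ^ (n + 1) ≤ ω * ω ^ n := by
  rw [← pow_succ']
  exact pow_le_pow_left₀ (zero_le_one.trans B.one_le) hω _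

theorem nul (hp : p.Prime) (h3 : H3.{u} p) (hω : B.w ≤ ω) {t r : ℕ} {K₀ : ℝ} (hK₀ : 0 ≤ K₀)
    (hR : ∀ s < t, B.RI ω s (r, K₀)) (A : ℕ) : ∃ (c₀ : ℕ) (K : ℝ), 0 ≤ K ∧ A ≤ c₀ ∧
    ∀ n, c₀ ≤ n → ∀ β b'', 0 ≤ β → B.q ^ (2 * t * (r + t)) * (β + K * ω ^ n) ≤ b'' →
    b'' ≤ (B.q * ω) ^ n → ∀ s ≤ t, ∀ y ∈ B.N n β s, ∀ b', B.d s y ∈ B.NA A n b' (s + 1) →
    (B.fr s ^ (2 * t * (r + t))) y ∈ B.NA A n b'' s ⊔ Bd B.d (B.N n b'') s := by
  obtain ⟨m, e0, K₁, hK₁, hc⟩ := B.hcI hp t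
  have ω1 := B.one_le.trans hω
  have q1 := B.one_le_q
  obtain ⟨K₃, hK₃⟩ : ∃ K₃, K₃ = 4 * ω + (K₁ * B.q ^ (A + m) + K₀) := ⟨_, rfl⟩
  have K0 : 0 ≤ K₃ := by
    rw [hK₃]
    positivity
  refine ⟨A + m + e0 + 2, 2 * ω + 2 * t * K₃, by positivity, by omega,
    fun n hn β b'' hβ h1 h2 s hs y hy b' hd => ?_⟩
  obtain ⟨e, he⟩ : ∃ e, n = e + (A + m) := ⟨n - (A + m), by omega⟩
  obtain ⟨T⟩ := B.td n n A (by omega) le_rfl
  have D0 := (B.D_pos n).le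
  have D1 := B.D_le hω n
  have S1 := one_le_pow₀ (n := n) ω1
  have hW : (B.q * ω) ^ n = B.q ^ e * (B.q ^ (A + m) * ω ^ n) := by
    rw [mul_pow, ← mul_assoc, ← pow_add, ← he]
  have hb := B.hb n
  generalize B.w ^ (n + 1) = D at *
  have Q1 := one_le_pow₀ (n := r + s) q1
  have κ0 : 0 ≤ K₃ * ω ^ n := by positivity
  have ts : (s : ℝ) ≤ t := by exact_mod_cast hs
  have le : 2 * s * (r + s) ≤ 2 * t * (r + t) := by gcongr
  have key := h3 X G _ _ _ _ _ n A B.q D T hb e m r s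
    (fun i => (B.q ^ (r + s)) ^ i * (β + D + i * (K₃ * ω ^ n)))
    (fun i => B.q ^ r * ((B.q ^ (r + s)) ^ i * (β + D + i * (K₃ * ω ^ n)) + D +
      K₁ * (B.q ^ (A + m) * ω ^ n) + K₀ * ω ^ n)) (by omega) (by omega) (fun i hi => ?_) y
    (by simpa using hy) b' hd
  · obtain ⟨k, hk⟩ := Nat.exists_eq_add_of_le' le
    have k1 : B.q ^ k * ((B.q ^ (r + s)) ^ (2 * s) * (β + D + (2 * s : ℕ) * (K₃ * ω ^ n)) + D)
        ≤ b'' := by
      refine le_trans ?_ h1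
      rw [hk, pow_add B.q k, ← pow_mul, mul_comm (r + s), mul_assoc (B.q ^ k)]
      refine mul_le_mul_of_nonneg_left ?_ (pow_pos B.q_pos k).le
      have k2 := one_le_pow₀ (n := 2 * s * (r + s)) q1
      have k3 : β + D + (2 * s : ℕ) * (K₃ * ω ^ n) + D ≤ β + (2 * ω + 2 * t * K₃) * ω ^ n := by
        push_cast
        nlinarith [mul_le_mul_of_nonneg_right ts κ0]
      nlinarith [mul_le_mul_of_nonneg_left k3 (zero_le_one.trans k2),
        mul_le_mul_of_nonneg_right k2 D0]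
    rw [hk, ← B.pow_pow]
    exact B.rel_pow k key k1 (le_trans (by gcongr; linarith) k1)
  · have k1 := stage (β := β + D) Q1 κ0 i
    have k2 : (B.q ^ (r + s)) ^ (i + 1) * (β + D + (i + 1 : ℕ) * (K₃ * ω ^ n)) ≤
        (B.q * ω) ^ n := by
      refine le_trans ?_ (h1.trans h2)
      have : ((i + 1 : ℕ) : ℝ) ≤ 2 * t := by exact_mod_cast (by omega : i + 1 ≤ 2 * t)
      rw [← pow_mul]
      refine mul_le_mul (pow_le_pow_right₀ q1 (le_trans ?_ le)) ?_ (by positivity) (by positivity)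
      · rw [mul_comm]
        gcongr
        omega
      · nlinarith [mul_le_mul_of_nonneg_right this κ0]
    have k0 : 0 ≤ (B.q ^ (r + s)) ^ i * (β + D + i * (K₃ * ω ^ n)) := by positivity
    generalize (B.q ^ (r + s)) ^ i * (β + D + i * (K₃ * ω ^ n)) = b at *
    have k3 : 0 ≤ K₁ * (B.q ^ (A + m) * ω ^ n) := by positivity
    have k4 : 0 ≤ K₀ * ω ^ n := by positivity
    have k5 : 4 * D + K₁ * (B.q ^ (A + m) * ω ^ n) + K₀ * ω ^ n ≤ K₃ * ω ^ n := by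
      rw [hK₃]
      linarith
    have k6 := le_mul_of_one_le_left (add_nonneg k0 κ0) Q1
    refine ⟨by nlinarith [le_mul_of_one_le_left κ0 Q1], ?_, fun s' hs' x hx hd => ?_⟩
    · rw [mul_add (B.q ^ s), ← mul_assoc, ← pow_add, add_comm s r]
      nlinarith [mul_le_mul_of_nonneg_left k5 (zero_le_one.trans Q1), le_mul_of_one_le_left D0 Q1,
        mul_le_mul_of_nonneg_right (pow_le_pow_right₀ q1 (Nat.le_add_left s r)) D0]
    · obtain ⟨z, k7, k8⟩ := hc e (by omega) (B.q ^ (A + m) * ω ^ n)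
        (one_le_mul_of_one_le_of_one_le (one_le_pow₀ q1) S1) (b + D) (by linarith)
        (by linarith) n s' (by omega) x hx hd
      obtain ⟨z', k9, k10⟩ := hR s' (by omega) n n _ (b + D) le_rfl (by linarith) (by linarith) z k7
        (by
          rw [k8, ← map_pow]
          exact sub_mem (B.ρ_N _ _ _ _ _ hx) hx)
      exact ⟨z', k9, k8 ▸ k10⟩

theorem step (hp : p.Prime) (h3 : H3.{u} p) (hω : B.w ≤ ω) {t r : ℕ} {K₀ : ℝ} (hK₀ : 0 ≤ K₀)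
    (hR : ∀ s < t, B.RI ω s (r, K₀)) (U : ℕ) : ∃ (R : ℕ) (K : ℝ), 0 ≤ K ∧
    ∀ n j β b0, j ≤ n → 0 ≤ β → β ≤ (B.q * ω) ^ n → ∀ Y ∈ B.N j β t, ∀ ζ ∈ B.N j b0 (t + 1),
    B.d t Y = (B.fr _ ^ (R + U)) ζ →
    ∃ z ∈ B.N j (β / B.q ^ U + K * ω ^ n) t, B.d t z = (B.fr _ ^ R) ζ := by
  obtain ⟨c₀, K₄, hK₄, hA, hn⟩ := B.nul hp h3 hω hK₀ hR (2 * t * (r + t) * (2 * t + 1) + U)
  generalize 2 * t * (r + t) = R at *
  obtain ⟨A, hAe⟩ : ∃ A, A = R * (2 * t + 1) + U := ⟨_, rfl⟩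
  rw [← hAe] at hA hn
  have ω1 := B.one_le.trans hω
  have q1 := B.one_le_q
  obtain ⟨K₅, hK₅⟩ : ∃ K₅, K₅ = B.q ^ A * ω + K₄ := ⟨_, rfl⟩
  have K0 : 0 ≤ K₅ := by
    rw [hK₅]
    positivity
  obtain ⟨c, hc, hr⟩ := room (Q := (B.q ^ R) ^ (2 * t + 1)) (K := ω + (2 * t + 1 : ℕ) * K₅) B.two_le
    ω1 (by positivity) (by positivity) c₀
  refine ⟨R * (2 * t + 1), (2 * ω + (2 * t + 1 : ℕ) * K₅) * ω ^ c, by positivity,
    fun n j β b0 hj hβ h1 Y hY ζ hζ e => ?_⟩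
  rw [← hAe] at e
  have jn : j ≤ n + c := by omega
  obtain ⟨T⟩ := B.td (n + c) (n + c) A (by omega) le_rfl
  have D0 := (B.D_pos (n + c)).le
  have D1 := B.D_le hω (n + c)
  have A1 := one_le_pow₀ (n := A) q1
  have F := B.famA A jn
  have F' := B.famN jn (le_mul_of_one_le_left D0 A1)
  have hi := B.Gs_inv j _ jn
  replace hr := hr n β h1
  replace hn := hn (n + c) (by omega)
  rw [mul_assoc, ← pow_add, add_comm c n]
  have S0 : 0 ≤ ω ^ (n + c) := by positivity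
  generalize B.w ^ (n + c + 1) = D at *
  generalize ω ^ (n + c) = S at *
  have Q1 := one_le_pow₀ (n := R) q1
  have κ0 : 0 ≤ K₅ * S := by positivity
  have l1 : B.q ^ A * D + K₄ * S ≤ K₅ * S := by
    rw [hK₅]
    nlinarith [mul_le_mul_of_nonneg_left D1 (zero_le_one.trans A1)]
  have l2 : 0 ≤ B.q ^ A * D := by positivity
  have l3 : 0 ≤ K₄ * S := by positivity
  have st : ∀ (i : ℕ) l, l ≤ K₅ * S → B.q ^ R * ((B.q ^ R) ^ i * (β + D + i * (K₅ * S)) + l) ≤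
      (B.q ^ R) ^ (i + 1) * (β + D + (i + 1 : ℕ) * (K₅ * S)) := fun i l hl =>
    le_trans (by gcongr) (stage Q1 κ0 i)
  obtain ⟨_, ⟨z, k1, rfl⟩, k2, k3⟩ := F.rel F' (B.NA_le A) (fun t => B.fr t ^ R) (B.pow_d R)
    (B.pow_ρ R) t (fun i => (B.q ^ R) ^ i * (β + D + i * (K₅ * S)))
    (fun i _ j' s x hx => B.NA_mono le_rfl (st i _ (by linarith)) s (B.pow_NA R hx))
    (fun i _ j' s x hx => B.mono le_rfl (st i _ (by linarith)) s (B.pow_N R hx))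
    (fun i hi s hs y hy hd => hn _ _ (by positivity) (st i _ (by linarith)) (le_trans (by
      have : ((i + 1 : ℕ) : ℝ) ≤ (2 * t + 1 : ℕ) := by exact_mod_cast hi
      refine mul_le_mul (pow_le_pow_right₀ Q1 hi) ?_ (by positivity) (by positivity)
      nlinarith [mul_le_mul_of_nonneg_right this κ0]) hr) s hs y hy _ hd)
    (y := Y) (B.mono jn (by simpa using D0) t hY)
    (by
      have := T.inv β _ _ (B.mono jn le_rfl _ (B.N_d _ _ _ _ hY)) (T.fix _ (G.u_tor A 1 0) _ _ _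
        (e ▸ B.NA_mono jn le_rfl _ (B.mem_NA A hζ)))
      simpa using this)
    fun g hg => B.Gs_fix j β t g hg Y hY
  refine ⟨z, B.mono le_rfl ?_ t (hi _ t z k1 fun g hg => (B.pow_bij A t).1 (by
    rw [B.pow_ρ, k2 g hg])), (B.pow_bij A _).1 ?_⟩
  · have U1 := one_le_pow₀ (n := U) q1
    rw [hAe, pow_add B.q, pow_mul B.q, mul_div_mul_left _ _ (by positivity), add_assoc, add_div]
    have k4 : 0 ≤ ((2 * t + 1 : ℕ) : ℝ) * (K₅ * S) := by positivity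
    linarith [div_le_self (add_nonneg D0 k4) U1]
  · rw [B.pow_d, ← k3, e, ← pow_mul, B.pow_pow, B.pow_pow, add_comm A]

theorem ri (hp : p.Prime) (h3 : H3.{u} p) (hω : B.w ≤ ω) {U : ℕ} (hU : B.q ^ U = B.q * ω) (t : ℕ) :
    ∃ a, B.RI ω t a := by
  have ω1 := B.one_le.trans hω
  have q1 := B.one_le_q
  induction t using Nat.strong_induction_on with
  | _ t ih =>
  obtain ⟨⟨r, K₀⟩, hK₀, hR⟩ := exists_unif (B.RI_mono (zero_le_one.trans ω1)) (0, 0) t ih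
  obtain ⟨R, K, hK, hs⟩ := B.step hp h3 hω hK₀.2 hR U
  obtain ⟨c₁, -, hr⟩ := room (Q := B.q ^ R) (K := 2 * K * ω) B.two_le ω1 (by positivity)
    (by positivity) 0
  refine ⟨(R, 2 * K * ω * ω ^ c₁), fun n j c b0 hj hc hc' y ⟨L, hy⟩ hd => ?_⟩
  replace hr := hr n c hc'
  have key : ∀ i, ∀ Y ∈ B.N j (B.q ^ R * ((B.q * ω) ^ i * c + 2 * K * ω * ω ^ (n + c₁) *
      (B.q * ω / 2) ^ i)) t, B.d t Y = (B.fr _ ^ (R + U * i)) (B.d t y) →
      ∃ y' ∈ B.N j (B.q ^ R * (c + 2 * K * ω * ω ^ (n + c₁))) t,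
        B.d t y' = (B.fr _ ^ R) (B.d t y) := fun i => by
    induction i with
    | zero => exact fun Y hY e => ⟨Y, by simpa using hY, e⟩
    | succ i ih =>
      intro Y hY e
      have W0 : 0 < B.q * ω := by positivity
      have k0 : 0 ≤ K * ω * ω ^ (n + c₁) := by positivity
      obtain ⟨z, k1, k2⟩ := hs (n + c₁ + (i + 1)) j _ _ (by omega) (by positivity) (by
        rw [pow_add (B.q * ω) (n + c₁)]
        refine le_trans ?_ (mul_le_mul_of_nonneg_right hr (by positivity))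
        rw [mul_assoc (B.q ^ R)]
        refine mul_le_mul_of_nonneg_left ?_ (pow_pos B.q_pos R).le
        nlinarith [mul_le_mul_of_nonneg_left (pow_le_pow_left₀ (half_pos W0).le
          (half_le_self W0.le) (i + 1)) k0]) Y hY _ (B.pow_N (U * i) hd) (by
        rw [e, B.pow_pow]
        congr 2
        ring)
      refine ih z (B.mono le_rfl ?_ t k1) (by rw [k2, B.pow_pow])
      have k3 : ω ^ i ≤ B.q ^ R * (B.q * ω / 2) ^ i :=
        (pow_le_pow_left₀ (by positivity) (by nlinarith [B.two_le]) i).trans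
          (le_mul_of_one_le_left (by positivity) (one_le_pow₀ q1))
      have k4 : B.q ^ R * ((B.q * ω) ^ (i + 1) * c + 2 * K * ω * ω ^ (n + c₁) *
          (B.q * ω / 2) ^ (i + 1)) / B.q ^ U = B.q ^ R * ((B.q * ω) ^ i * c +
            K * ω * ω ^ (n + c₁) * (B.q * ω / 2) ^ i) := by
        rw [hU, pow_succ, pow_succ]
        field_simp
      rw [k4, pow_add ω (n + c₁), pow_succ ω i]
      nlinarith [mul_le_mul_of_nonneg_left k3 k0]
  have U1 : U ≠ 0 := by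
    rintro rfl
    nlinarith [B.two_le, pow_zero B.q]
  obtain ⟨M, hM⟩ : ∃ M, R + U * L = M + L :=
    Nat.exists_eq_add_of_le' ((Nat.le_mul_of_pos_left L (Nat.pos_of_ne_zero U1)).trans (by omega))
  obtain ⟨y', k1, k2⟩ := key L _ (B.mono le_rfl (by
      rw [← hM, pow_add, pow_mul, hU, mul_assoc]
      refine mul_le_mul_of_nonneg_left (le_add_of_nonneg_right ?_) ?_ <;> positivity) t
    (B.NL_add M hy)) (by rw [hM, B.pow_d])
  refine ⟨y', ?_, k2⟩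
  rwa [mul_assoc (2 * K * ω), ← pow_add, add_comm c₁]

theorem bnd' (hp : p.Prime) (h3 : H3.{u} p) (h4 : H4.{u} p) : B.toBase.BND := by
  obtain ⟨k, hω⟩ := B.exists_pow B.w
  have W1 : 1 < B.q * B.q ^ k :=
    one_lt_two.trans_le (B.two_le.trans (le_mul_of_one_le_right B.q_pos.le (B.one_le.trans hω)))
  intro t
  induction t using Nat.strong_induction_on with
  | _ t ih =>
  obtain ⟨⟨r, K⟩, hR⟩ := B.ri hp h3 hω (pow_succ' _ k) t
  have un : ∀ j l t', (∀ s < t', ∀ b, ∃ b', ∀ x ∈ B.N j b (s + 1), B.d _ x = 0 →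
      ∃ y ∈ B.N j b' s, B.d s y = x) → ∃ φ : ℝ → ℝ, ∀ b, b + l ≤ φ b ∧ ∀ s < t',
      ∀ x ∈ B.N j b (s + 1), B.d _ x = 0 → ∃ y ∈ B.N j (φ b - l) s, B.d s y = x := by
    intro j l t' h
    choose φ h1 h2 using fun b => exists_unif (P := fun s b' => ∀ x ∈ B.N j b (s + 1),
      B.d _ x = 0 → ∃ y ∈ B.N j b' s, B.d s y = x)
      (fun s _ _ h k x hx hd => let ⟨y, k1, k2⟩ := k x hx hd
        ⟨y, B.mono le_rfl h s k1, k2⟩) b t' fun s hs => h s hs b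
    exact ⟨fun b => φ b + l, fun b => ⟨add_le_add_left (h1 b) l, by simpa using h2 b⟩⟩
  have top : ∀ j, r ≤ j → ∀ b, ∃ b', ∀ x ∈ B.N j b (t + 1), B.d _ x = 0 →
      ∃ y ∈ B.N j b' t, B.d t y = x := by
    intro j hj b
    obtain ⟨b₁, h1⟩ := B.bndI t b
    obtain ⟨n, hn⟩ := pow_unbounded_of_one_lt (max b₁ 0) W1
    obtain ⟨T⟩ := B.td j j r hj le_rfl
    obtain ⟨φ, hφ⟩ := un j (B.w ^ (j + 1)) t fun s hs => ih s hs j
    refine ⟨(φ^[2 * t] (B.q ^ r * (max b₁ 0 + K * (B.q ^ k) ^ (n + j)) + B.w ^ (j + 1)) +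
      B.w ^ (j + 1)) / B.q ^ r, fun x hx hd => ?_⟩
    obtain ⟨y, k1, rfl⟩ := h1 j x (B.N_le _ _ _ hx) hd
    obtain ⟨y', k2, k3⟩ := hR (n + j) j (max b₁ 0) b (by omega) (le_max_right _ _)
      (hn.le.trans (pow_le_pow_right₀ W1.le (by omega))) y
      (B.NI_mono le_rfl (le_max_left _ _) t k1) hx
    obtain ⟨_, ⟨z, k4, rfl⟩, v, hv, e⟩ := Submodule.mem_sup.1 (h4 X G _ _ _ _ _ j r B.q _ T (B.hb j)
      hj t (fun i => φ^[i] (B.q ^ r * (max b₁ 0 + K * (B.q ^ k) ^ (n + j)) + B.w ^ (j + 1)))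
      (fun i _ => by
        rw [Function.iterate_succ_apply']
        exact hφ _) y' (by simpa using k2) _ (k3 ▸ B.mem_NA r hx))
    refine ⟨z, k4, (B.pow_bij r _).1 ?_⟩
    rw [← k3, ← e, map_add, B.pow_d, left_eq_add]
    cases t with
    | zero =>
      obtain rfl : v = 0 := hv
      exact map_zero _
    | succ t =>
      obtain ⟨u, -, rfl⟩ := hv
      exact B.dd _ _
  intro j b
  obtain ⟨φ, hφ⟩ := un (max j r) (B.w ^ (max j r + 1)) (t + 1) fun s hs => by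
    rcases Nat.lt_succ_iff_lt_or_eq.1 hs with h | rfl
    exacts [ih s h _, top _ (le_max_right _ _)]
  refine ⟨φ^[2 * t + 1] b + B.w ^ (max j r + 1), fun x hx hd => ?_⟩
  obtain ⟨_, rfl, y, k2, k3, k4⟩ := (B.famN (le_max_left j r) le_rfl).desc 1 (fun _ _ => rfl)
    (fun _ _ _ => rfl) t (fun i => φ^[i] b)
    (fun i _ j' s x hx => B.mono le_rfl (by
      rw [Function.iterate_succ_apply']
      exact (hφ _).1) s hx)
    (by
      rintro i - _ rfl s hs x hx hd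
      obtain ⟨y, k1, k2⟩ := (hφ _).2 s (by omega) x hx hd
      rw [Function.iterate_succ_apply']
      exact ⟨_, rfl, y, B.mono le_rfl (sub_le_self _ (B.D_pos _).le) s k1, k2.symm⟩)
    rfl (B.mono (le_max_left _ _) le_rfl _ hx) hd fun g hg => B.Gs_fix j _ _ g hg x hx
  exact ⟨y, B.Gs_inv j _ (le_max_left _ _) _ t y k2 k3, by simpa using k4.symm⟩

end Core

end P261.PC
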