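import Vale.Agent.P261Z.PC.H3
import Vale.Agent.P261Z.Cs.All

/-! Multiplication by `p^r` on the cohomology of the torsion of a group functor; the step `H3`. -/

namespace P261.PC

open scoped TensorProduct
open P261.Cs Algebra.TensorProduct

universe u

theorem exists_htpy {K V0 V1 V2 : Type*} [Field K] [AddCommGroup V0] [Module K V0] [AddCommGroup V1]
    [Module K V1] [AddCommGroup V2] [Module K V2] (δ : V0 →ₗ[K] V1) (δ' : V1 →ₗ[K] V2)
    (P : V1 →ₗ[K] V1) (h : ∀ x, δ' x = 0 → P x ∈ LinearMap.range δ) :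
    ∃ (a : V1 →ₗ[K] V0) (b : V2 →ₗ[K] V1), P = δ ∘ₗ a + b ∘ₗ δ' := by
  obtain ⟨s, hs⟩ := δ.rangeRestrict.exists_rightInverse_of_surjective (LinearMap.range_rangeRestrict δ)
  obtain ⟨a, ha⟩ := LinearMap.exists_extend (s ∘ₗ (P ∘ₗ (LinearMap.ker δ').subtype).codRestrict _
    fun x => h x x.2)
  have hk : LinearMap.ker δ' ≤ LinearMap.ker (P - δ ∘ₗ a) := by
    intro x hx
    have e1 := LinearMap.congr_fun ha ⟨x, hx⟩
    have e2 := congrArg Subtype.val (LinearMap.congr_fun hs ⟨P x, h x hx⟩)
    change P x - δ (a x) = 0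
    rw [sub_eq_zero, show a x = s ⟨P x, h x hx⟩ from e1]
    exact e2.symm
  obtain ⟨b, hb⟩ := LinearMap.exists_extend
    ((LinearMap.ker δ').liftQ _ hk ∘ₗ δ'.quotKerEquivRange.symm.toLinearMap)
  refine ⟨a, b, LinearMap.ext fun x => ?_⟩
  have e3 := LinearMap.congr_fun hb ⟨δ' x, x, rfl⟩
  simp only [LinearMap.comp_apply, Submodule.subtype_apply, LinearEquiv.coe_coe] at e3
  rw [LinearMap.quotKerEquivRange_symm_apply_image δ' x ⟨x, rfl⟩] at e3
  simp [e3]

namespace GF

variable {p : ℕ} (G : GF p) (m : ℕ)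

theorem tor_cT {a n : ℕ} (f : Fin (a + 1) → Fin (n + 1)) (i : Fin a) :
    df ((Fin.cons 0 (G.u m n) : Fin (n + 1) → _) ∘ f) i ∈ G.tor m _ :=
  tor_df (fun _ => tor_cons (zero_mem _) (tor_u _) _) i

theorem tor_co (n : ℕ) (i : Fin n) : G.map includeLeft (G.u m n i) + G.map includeRight (G.u m n i) ∈
    G.tor m (G.O m n ⊗[ZMod p] G.O m n) := add_mem (tor_map _ (tor_u _ _)) (tor_map _ (tor_u _ _))

/-- The addition of points. -/
noncomputable def law : Law (G.cT m) where
  co n := G.lift m fun i => G.map includeLeft (G.u m n i) + G.map includeRight (G.u m n i)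
  ep _ := G.lift m fun _ => 0
  co_nat {a n} f x := by
    rw [← AlgHom.comp_apply, ← AlgHom.comp_apply, comp_lift _ (G.tor_cT m f),
      comp_lift (S' := G.O m n ⊗[ZMod p] G.O m n) _ (G.tor_co m a)]
    congr 2
    funext i
    have e1 : ∀ l : Fin (n + 1), (Fin.cons 0 fun i => G.map includeLeft (G.u m n i) +
        G.map includeRight (G.u m n i) : Fin (n + 1) → G.Pt (G.O m n ⊗[ZMod p] G.O m n)) l =
        G.map includeLeft ((Fin.cons 0 (G.u m n) : Fin (n + 1) → _) l) +
        G.map includeRight ((Fin.cons 0 (G.u m n) : Fin (n + 1) → _) l) := fun l => by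
      refine Fin.cases ?_ (fun l => ?_) l <;> simp
    rw [map_add, ← G.map_comp, ← G.map_comp, map_comp_includeLeft, map_comp_includeRight,
      G.map_comp, G.map_comp, G.lift_u m _ (G.tor_cT m f)]
    simp only [df, map_sub, Function.comp]
    rw [map_cons0 (G.tor_co m n), map_cons0 (G.tor_co m n), e1, e1]
    abel
  ep_nat {a n} f x := by
    rw [← AlgHom.comp_apply, comp_lift _ (G.tor_cT m f)]
    congr 2
    funext i
    simp only [df, map_sub, Function.comp]
    rw [map_cons0 fun _ => zero_mem _, map_cons0 fun _ => zero_mem _]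
    have : ∀ l : Fin (n + 1), (Fin.cons 0 fun _ => 0 : Fin (n + 1) → G.Pt (ZMod p)) l = 0 := fun l => by
      refine Fin.cases ?_ (fun l => ?_) l <;> simp
    rw [this, this, sub_zero]
  left n x := by
    rw [← AlgHom.comp_apply, comp_lift _ (G.tor_co m n)]
    refine Eq.trans ?_ (congrFun (congrArg DFunLike.coe (lift_id (G := G) (m := m) n)) x)
    congr 2
    funext i
    rw [map_add, ← G.map_comp, ← G.map_comp, lift_comp_includeLeft, lift_comp_includeRight',
      G.map_comp, G.lift_u m _ fun _ => smul_zero _, map_zero, G.map_id, zero_add]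
  right n x := by
    rw [← AlgHom.comp_apply, comp_lift _ (G.tor_co m n)]
    refine Eq.trans ?_ (congrFun (congrArg DFunLike.coe (lift_id (G := G) (m := m) n)) x)
    congr 2
    funext i
    rw [map_add, ← G.map_comp, ← G.map_comp, lift_comp_includeLeft, lift_comp_includeRight',
      G.map_comp, G.lift_u m _ fun _ => smul_zero _, map_zero, G.map_id, add_zero]

theorem law_pw (n N : ℕ) : (G.law m).pw n N = G.lift m fun i => N • G.u m n i := by
  induction N with
  | zero =>
    refine (comp_lift _ fun _ => zero_mem _).trans ?_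
    simp
  | succ N ih =>
    rw [Law.pw, ih]
    refine (comp_lift _ (G.tor_co m n)).trans ?_
    congr 1
    funext i
    rw [map_add, ← G.map_comp, ← G.map_comp, lift_comp_includeLeft, lift_comp_includeRight',
      G.lift_u m _ fun i => (nsmul_mem (tor_u _ i) _ : _ ∈ G.tor m _), G.map_id, succ_nsmul']

theorem nul [Fact p.Prime] : G.NUL := by
  intro m a r har
  have key : ∀ x, (G.cT m).cos.d (a + 1) x = 0 →
      (G.pw m (a + 1) r).toLinearMap x ∈ LinearMap.range ((G.cT m).cos.d a) := by
    intro x hx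
    have h1 := All.conv (ZMod p) p (G.cT m) (G.law m) (fun _ => Sub.top _) (fun _ _ => trivial)
      (fun _ _ _ _ _ _ => trivial) (fun n x _ => by
        rw [TensorProduct.range_mapIncl]
        change _ ∈ Submodule.map₂ _ ⊤ ⊤
        rw [TensorProduct.map₂_mk_top_top_eq_top]
        trivial)
      (fun x _ _ h => by
        have : (Algebra.ofId (ZMod p) (G.O m 0)).comp ((G.law m).ep 0) = AlgHom.id _ _ :=
          G.ext m _ _ fun i => i.elim0
        have e := congrFun (congrArg DFunLike.coe this) x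
        change algebraMap _ _ ((G.law m).ep 0 x) = x at e
        rw [← e, h, map_zero]) r (a + 1) har x trivial hx
    rw [law_pw] at h1
    obtain ⟨y, -, hy⟩ := h1
    let E : Hom (G.cT m).cos (const (ZMod p) (ZMod p)) :=
      ⟨fun n => ((G.law m).ep n).toLinearMap, fun f x => (G.law m).ep_nat f x⟩
    let I : Hom (const (ZMod p) (ZMod p)) (G.cT m).cos :=
      ⟨fun n => Algebra.linearMap _ _, fun f x => (((G.cT m).map f).commutes x).symm⟩
    obtain ⟨z, hz⟩ := I.map_bd ((All.constpath (ZMod p)).1 (ZMod p) a _ (E.map_cocycle hx))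
    refine ⟨y + z, ?_⟩
    rw [map_add, hy, hz]
    exact sub_add_cancel _ _
  obtain ⟨h, h', e⟩ := exists_htpy _ _ _ key
  by_cases ha : a = 0
  · subst ha
    refine ⟨0, h', fun _ => rfl, e.trans ?_⟩
    congr 1
    ext x
    change (G.cT m).cos.d 0 (h x) = (G.cT m).cos.d 0 0
    rw [map_zero, HtpyAux.d_apply, Fin.sum_univ_two]
    have : (G.cT m).map (Fin.succAbove (0 : Fin 2)) = (G.cT m).map (Fin.succAbove (1 : Fin 2)) :=
      G.ext m _ _ fun i => i.elim0
    change _ • (G.cT m).map _ _ + _ • (G.cT m).map _ _ = 0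
    rw [this]
    simp
  · exact ⟨h, h', fun h0 => absurd h0 ha, e⟩

end GF

theorem h3 (p : ℕ) [Fact p.Prime] : H3.{u} p := h3_of p fun G => G.nul

end P261.PC
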