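import Vale.Agent.P261Z.PC.Gh
import Vale.Agent.P261Z.Cs.Htpy

/-! Descent along a profinite group: the ghost lemma for homogeneous cochains. -/

namespace P261.PC

open P261.Cs

universe u

/-- Functions on tuples. -/
@[reducible] def cF (k : Type) [CommRing k] (Γ : Type) (V : Type u) [AddCommGroup V] [Module k V] :
    Cos.{u} k where
  X n := (Fin (n + 1) → Γ) → V
  map f := LinearMap.funLeft k V (fun g => g ∘ f)
  map_id _ _ := rfl
  map_comp _ _ _ := rfl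

theorem cF_d {k : Type} [CommRing k] {Γ : Type} {V : Type u} [AddCommGroup V] [Module k V] (n : ℕ)
    (F : (Fin (n + 1) → Γ) → V) (g : Fin (n + 2) → Γ) :
    (cF k Γ V).d n F g = ∑ i : Fin (n + 2), ((-1 : k) ^ (i : ℕ)) • F (g ∘ i.succAbove) := by
  rw [HtpyAux.d_apply, Finset.sum_apply]; rfl

theorem cons_sa {α : Type*} {n : ℕ} (x : α) (g : Fin (n + 1) → α) (l : Fin (n + 1)) :
    (Fin.cons x g : Fin (n + 2) → α) ∘ l.succ.succAbove = Fin.cons x (g ∘ l.succAbove) := by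
  funext i
  refine Fin.cases ?_ (fun i => ?_) i
  · simp
  · simp

variable {k : Type} [CommRing k] {Γ : Type} [Group Γ] {X : ℕ → Type u} [∀ t, AddCommGroup (X t)]
  [∀ t, Module k (X t)]

/-- Hypotheses of the descent lemma: stages `i < I`, levels `j ∈ J`, degrees `≤ T + 1`. -/
structure GH (d : ∀ t, X t →ₗ[k] X (t + 1)) (ρ : ∀ t, Γ →* Module.End k (X t))
    (f : ∀ t, Module.End k (X t)) (U : ℕ → Subgroup Γ) (J : Set ℕ)
    (M : ℕ → ℕ → ∀ t, Submodule k (X t)) (I T : ℕ) : Prop where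
  dd : ∀ t x, d (t + 1) (d t x) = 0
  inj0 : ∀ i j, ∀ x ∈ M i j 0, d 0 x = 0 → x = 0
  ρd : ∀ t g x, ρ (t + 1) g (d t x) = d t (ρ t g x)
  fd : ∀ t x, f (t + 1) (d t x) = d t (f t x)
  fρ : ∀ t g x, f t (ρ t g x) = ρ t g (f t x)
  anti : Antitone U
  normal : ∀ j ∈ J, (U j).Normal
  fin : ∀ j ∈ J, (U j).FiniteIndex
  mono : ∀ i j j', j ≤ j' → ∀ t, M i j t ≤ M i j' t
  Md : ∀ i j t, ∀ x ∈ M i j t, d t x ∈ M i j (t + 1)
  Mρ : ∀ i j t g, ∀ x ∈ M i j t, ρ t g x ∈ M i j t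
  Mf : ∀ i, i < I → ∀ j t, ∀ x ∈ M i j t, f t x ∈ M (i + 1) j t
  fix : ∀ i, ∀ j ∈ J, ∀ t, ∀ g ∈ U j, ∀ x ∈ M i j t, ρ t g x = x
  tr : ∀ i, i < I → ∀ j ∈ J, ∀ t, ∃ μ : Module.End k (X t), ∀ x ∈ M i j t,
    μ x ∈ M (i + 1) j t ∧ ∑ᶠ δ : Γ ⧸ U j, ρ t δ.out (μ (ρ t δ.out⁻¹ x)) = f t x
  null : ∀ i, i < I → ∀ j ∈ J, ∀ t, t ≤ T → ∀ x ∈ M i j (t + 1), d _ x = 0 →
    ∃ j' ∈ J, ∃ y ∈ M (i + 1) j' t, f _ x = d t y

namespace GH

variable {d : ∀ t, X t →ₗ[k] X (t + 1)} {ρ : ∀ t, Γ →* Module.End k (X t)}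
  {f : ∀ t, Module.End k (X t)} {U : ℕ → Subgroup Γ} {J : Set ℕ}
  {M : ℕ → ℕ → ∀ t, Submodule k (X t)} {I T : ℕ}

/-- Equivariant locally constant cochains. -/
def S (h : GH d ρ f U J M I T) (j0 : ℕ) (h0 : j0 ∈ J) (i a t : ℕ) :
    Submodule k ((Fin (a + 1) → Γ) → X t) where
  carrier := {F | (∀ (γ : Γ) g, F (fun l => γ * g l) = ρ t γ (F g)) ∧ ∃ j ∈ J,
    (∀ g, F g ∈ M i j t) ∧ ∀ g g', (∀ l, (g l)⁻¹ * g' l ∈ U j) → F g = F g'}
  zero_mem' := ⟨fun _ _ => by simp, j0, h0, fun _ => zero_mem _, fun _ _ _ => rfl⟩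
  add_mem' := by
    rintro F F' ⟨e, j, hj, h1, h2⟩ ⟨e', j', hj', h1', h2'⟩
    refine ⟨fun γ g => by simp [e, e'], max j j', ?_, fun g => add_mem
      (h.mono _ _ _ (le_max_left _ _) _ (h1 g)) (h.mono _ _ _ (le_max_right _ _) _ (h1' g)),
      fun g g' hg => ?_⟩
    · rcases max_choice j j' with e | e <;> rw [e] <;> assumption
    · simp only [Pi.add_apply]
      rw [h2 g g' fun l => h.anti (le_max_left j j') (hg l),
        h2' g g' fun l => h.anti (le_max_right j j') (hg l)]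
  smul_mem' := by
    rintro c F ⟨e, j, hj, h1, h2⟩
    exact ⟨fun γ g => by simp [e], j, hj, fun g => Submodule.smul_mem _ _ (h1 g),
      fun g g' hg => by simp only [Pi.smul_apply]; rw [h2 g g' hg]⟩

theorem ρ_mul (t : ℕ) (g g' : Γ) (x : X t) : ρ t (g * g') x = ρ t g (ρ t g' x) := by
  rw [map_mul]; rfl

theorem row (h : GH d ρ f U J M I T) (j0 : ℕ) (h0 : j0 ∈ J) (i : ℕ) (hi : i < I) (a t : ℕ)
    (F : (Fin (a + 2) → Γ) → X t) (hF : F ∈ h.S j0 h0 i (a + 1) t)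
    (hd : (cF k Γ (X t)).d (a + 1) F = 0) :
    ∃ Y ∈ h.S j0 h0 (i + 1) a t, (fun g => f t (F g)) = (cF k Γ (X t)).d a Y := by
  obtain ⟨e, j, hj, h1, h2⟩ := hF
  obtain ⟨μ, hμ⟩ := h.tr i hi j hj t
  have := h.fin j hj
  have : Fintype (Γ ⧸ U j) := Fintype.ofFinite _
  let E : (Fin (a + 1) → Γ) → Γ → X t := fun g c => ρ t c (μ (ρ t c⁻¹ (F (Fin.cons c g))))
  have hE1 : ∀ g c u, u ∈ U j → E g (c * u) = E g c := by
    intro g c u hu
    have e1 : F (Fin.cons (c * u) g) = F (Fin.cons c g) := by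
      refine (h2 _ _ fun l => ?_).symm
      refine Fin.cases ?_ (fun l => ?_) l
      · simpa using hu
      · simp [one_mem]
    have m1 := h.Mρ i j t c⁻¹ _ (h1 (Fin.cons c g))
    simp only [E]
    rw [e1, mul_inv_rev, ρ_mul, ρ_mul, h.fix i j hj t _ (inv_mem hu) _ m1,
      h.fix (i + 1) j hj t _ hu _ (hμ _ m1).1]
  have hE2 : ∀ g c γ, E (fun l => γ * g l) (γ * c) = ρ t γ (E g c) := by
    intro g c γ
    have e1 : (Fin.cons (γ * c) (fun l => γ * g l) : Fin (a + 2) → Γ) =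
        fun l => γ * (Fin.cons c g : Fin (a + 2) → Γ) l := by
      funext l; refine Fin.cases ?_ (fun l => ?_) l <;> simp
    simp only [E]
    rw [e1, e, ← ρ_mul t (γ * c)⁻¹, ρ_mul t γ c]
    congr 4
    group
  refine ⟨fun g => ∑ δ : Γ ⧸ U j, E g δ.out, ⟨fun γ g => ?_, j, hj, fun g => ?_, fun g g' hg => ?_⟩, ?_⟩
  · change ∑ δ : Γ ⧸ U j, E (fun l => γ * g l) δ.out = _
    rw [← Equiv.sum_comp (MulAction.toPerm γ), map_sum]
    refine Finset.sum_congr rfl fun δ _ => ?_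
    rw [← hE2]
    obtain ⟨u, hu⟩ := QuotientGroup.mk_out_eq_mul (U j) (γ * δ.out)
    have e2 : (MulAction.toPerm γ δ : Γ ⧸ U j) = ((γ * δ.out : Γ) : Γ ⧸ U j) := by
      conv_lhs => rw [← QuotientGroup.out_eq' δ]
      rfl
    rw [e2, hu, hE1 _ _ _ u.2]
  · exact sum_mem fun δ _ => h.Mρ _ _ _ _ _ (hμ _ (h.Mρ _ _ _ _ _ (h1 _))).1
  · refine Finset.sum_congr rfl fun δ _ => ?_
    simp only [E]
    rw [h2 (Fin.cons δ.out g) (Fin.cons δ.out g') fun l => by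
      refine Fin.cases ?_ (fun l => ?_) l
      · simp [one_mem]
      · simpa using hg l]
  · funext g
    have key : ∀ c : Γ, ∑ l : Fin (a + 2), ((-1 : k) ^ (l : ℕ)) • F (Fin.cons c (g ∘ l.succAbove)) =
        F g := by
      intro c
      have : (cF k Γ (X t)).d (a + 1) F (Fin.cons c g) = 0 := congrFun hd (Fin.cons c g)
      rw [cF_d, Fin.sum_univ_succ] at this
      simp only [cons_sa, Fin.val_zero, pow_zero, one_smul, Fin.val_succ, pow_succ, mul_neg_one,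
        neg_smul, Finset.sum_neg_distrib] at this
      have e3 : (Fin.cons c g : Fin (a + 3) → Γ) ∘ Fin.succAbove 0 = g := by funext l; simp
      rw [e3, add_neg_eq_zero] at this
      exact this.symm
    rw [cF_d, ← (hμ _ (h1 g)).2, finsum_eq_sum_of_fintype]
    simp only [Finset.smul_sum]
    rw [Finset.sum_comm]
    refine Finset.sum_congr rfl fun δ _ => ?_
    rw [← key δ.out]
    simp only [E, map_sum, map_smul]

/-- The double complex of cochains. -/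
def dc (h : GH d ρ f U J M I T) (j0 : ℕ) (h0 : j0 ∈ J) :
    DC k (fun a t => (Fin (a + 1) → Γ) → X t) I where
  d _ t := (d t).compLeft _
  de a t := (cF k Γ (X t)).d a
  ps _ t := LinearMap.compLeft (f t) _
  S := h.S j0 h0
  dd _ t F := funext fun g => h.dd t (F g)
  ee a t F := Cs.dd k (cF k Γ (X t)) a F
  ed a t F := funext fun g => by
    change _ = d t ((cF k Γ (X t)).d a F g)
    rw [cF_d, cF_d]; simp
  pd _ t F := funext fun g => h.fd t (F g)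
  pe a t F := funext fun g => by
    change f t ((cF k Γ (X t)).d a F g) = _
    rw [cF_d, cF_d]; simp
  Sd i a t F := by
    rintro ⟨e, j, hj, h1, h2⟩
    exact ⟨fun γ g => by simp [e, h.ρd], j, hj, fun g => h.Md _ _ _ _ (h1 g),
      fun g g' hg => congrArg (d t) (h2 g g' hg)⟩
  Se i a t F := by
    rintro ⟨e, j, hj, h1, h2⟩
    refine ⟨fun γ g => ?_, j, hj, fun g => ?_, fun g g' hg => ?_⟩
    · rw [cF_d, cF_d, map_sum]
      refine Finset.sum_congr rfl fun l _ => ?_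
      rw [map_smul, ← e]; rfl
    · rw [cF_d]; exact sum_mem fun l _ => Submodule.smul_mem _ _ (h1 _)
    · rw [cF_d, cF_d]
      exact Finset.sum_congr rfl fun l _ => by rw [h2 (g ∘ l.succAbove) (g' ∘ l.succAbove) fun m => hg _]
  Sp i hi a t F := by
    rintro ⟨e, j, hj, h1, h2⟩
    exact ⟨fun γ g => by simp [e, h.fρ], j, hj, fun g => h.Mf i hi _ _ _ (h1 g),
      fun g g' hg => congrArg (f t) (h2 g g' hg)⟩
  base i a F := by
    rintro ⟨-, j, -, h1, -⟩ hd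
    exact funext fun g => h.inj0 i j _ (h1 g) (congrFun hd g)
  row i hi a t F hF hd := h.row j0 h0 i hi a t F hF hd

theorem col (h : GH d ρ f U J M I T) (j0 : ℕ) (h0 : j0 ∈ J) : (h.dc j0 h0).Col T := by
  rintro i hi a t ht F ⟨e, j, hj, h1, h2⟩ hd
  have := h.fin j hj
  have := h.normal j hj
  choose j' hj' y hy ey using fun c : Fin (a + 1) → Γ ⧸ U j =>
    h.null i hi j hj t ht (F fun l => (c l).out) (h1 _) (congrFun hd _)
  obtain ⟨c0, hc0⟩ := Finite.exists_max j'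
  have hm : max j (j' c0) ∈ J := by
    rcases max_choice j (j' c0) with e | e <;> rw [e]
    exacts [hj, hj' c0]
  have hy' : ∀ c, y c ∈ M (i + 1) (max j (j' c0)) t := fun c =>
    h.mono _ _ _ ((hc0 c).trans (le_max_right _ _)) _ (hy c)
  refine ⟨fun g => ρ t (g 0) (y fun l => (((g 0)⁻¹ * g l : Γ) : Γ ⧸ U j)),
    ⟨fun γ g => ?_, _, hm, fun g => h.Mρ _ _ _ _ _ (hy' _), fun g g' hg => ?_⟩, ?_⟩
  · simp only [ρ_mul, mul_inv_rev, mul_assoc, inv_mul_cancel_left]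
  · have e1 : (fun l => (((g 0)⁻¹ * g l : Γ) : Γ ⧸ U j)) = fun l => (((g' 0)⁻¹ * g' l : Γ) : Γ ⧸ U j) := by
      funext l
      have a0 : ((g 0 : Γ) : Γ ⧸ U j) = g' 0 := QuotientGroup.eq.2 (h.anti (le_max_left _ _) (hg 0))
      have a1 : ((g l : Γ) : Γ ⧸ U j) = g' l := QuotientGroup.eq.2 (h.anti (le_max_left _ _) (hg l))
      rw [QuotientGroup.mk_mul, QuotientGroup.mk_mul, QuotientGroup.mk_inv, QuotientGroup.mk_inv, a0, a1]
    have e2 : g' 0 = g 0 * ((g 0)⁻¹ * g' 0) := by group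
    beta_reduce
    rw [e1]
    generalize (fun l => (((g' 0)⁻¹ * g' l : Γ) : Γ ⧸ U j)) = c
    rw [e2, ρ_mul, h.fix _ _ hm t _ (hg 0) _ (hy' _)]
  · funext g
    change f _ (F g) = d t _
    rw [← h.ρd, ← ey, ← h.fρ, ← e]
    congr 1
    refine h2 _ _ fun l => ?_
    obtain ⟨u, hu⟩ := QuotientGroup.mk_out_eq_mul (U j) ((g 0)⁻¹ * g l)
    rw [hu, ← mul_assoc, ← mul_assoc, ← mul_assoc, mul_assoc _ _ (g 0)⁻¹, mul_inv_cancel, mul_one,
      inv_mul_cancel, one_mul]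
    exact u.2

/-- Descent: the composite of the transitions kills the cohomology of the invariants. -/
theorem desc (h : GH d ρ f U J M I T) (t : ℕ) (ht : t ≤ T) (i : ℕ) (hi : i + (2 * t + 1) ≤ I)
    (j : ℕ) (hj : j ∈ J) (x : X (t + 1)) (hx : x ∈ M i j (t + 1)) (h1 : d _ x = 0)
    (h2 : ∀ g, ρ _ g x = x) :
    ∃ j' ∈ J, ∃ y ∈ M (i + (2 * t + 1)) j' t, (∀ g, ρ t g y = y) ∧ (f _ ^ (2 * t + 1)) x = d t y := by
  obtain ⟨Y, ⟨e, j', hj', m1, -⟩, e1, e2⟩ := (h.dc j hj).e1 (h.col j hj) t ht i hi (fun _ => x)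
    ⟨fun γ _ => (h2 γ).symm, j, hj, fun _ => hx, fun _ _ _ => rfl⟩ (funext fun _ => h1)
    (funext fun g => by
      change (cF k Γ (X (t + 1))).d 0 (fun _ => x) g = 0
      rw [cF_d]; simp [Fin.sum_univ_succ])
  refine ⟨j', hj', Y 1, m1 _, fun g => ?_, ?_⟩
  · have := congrFun e1 ![g, 1]
    change (cF k Γ (X t)).d 0 Y _ = 0 at this
    rw [cF_d, Fin.sum_univ_two] at this
    have a0 : (![g, 1] : Fin 2 → Γ) ∘ Fin.succAbove 0 = 1 := by
      funext l; fin_cases l; rfl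
    have a1 : (![g, 1] : Fin 2 → Γ) ∘ Fin.succAbove 1 = fun l => g * (1 : Fin 1 → Γ) l := by
      funext l; fin_cases l; simp
    rw [a0, a1, e] at this
    simp only [Fin.val_zero, pow_zero, one_smul, Fin.val_one, pow_one, neg_smul,
      add_neg_eq_zero] at this
    exact this.symm
  · have e3 : ∀ n (F : (Fin (0 + 1) → Γ) → X (t + 1)) g,
        ((h.dc j hj).ps 0 (t + 1) ^ n) F g = (f _ ^ n) (F g) := by
      intro n
      induction n with
      | zero => intro F g; rfl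
      | succ n ih => intro F g; rw [pow_succ, pow_succ]; exact ih _ g
    rw [← e3 _ (fun _ => x) 1, e2]; rfl

end GH

end P261.PC
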