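import Vale.Agent.P261Z.PC.Main
import Vale.Agent.P261Z.PC.Van

/-! # P261, block P: the abstract deperfection theorem -/

namespace P261.PC

universe u

theorem Core.bounded {p : ℕ} [Fact p.Prime] {X : ℕ → Type u} [∀ t, AddCommGroup (X t)]
    [∀ t, Module (ZMod p) (X t)] {G : GF p} {Γ : Type} [Group Γ] (B : Core p X G Γ) :
    B.toBase.BND :=
  B.bnd' Fact.out (h3 p) (h4 p)

end P261.PC
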