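import Mathlib

/-!
# P261, block P: input of the abstract deperfection theorem

`GF`: the points of the formal group `H^c`; `Base`: one ambient complex with Frobenius and the pieces
`N j b` (level `0`, Igusa level `j`, height `b`); `TD`: the torsor structure; `Core`: everything.
-/

namespace P261.PC

open scoped TensorProduct

universe u

/-- An abelian group functor on `ZMod p`-algebras whose `p^m`-torsion is representable. -/
structure GF (p : ℕ) where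
  Pt : (S : Type) → [CommRing S] → [Algebra (ZMod p) S] → Type
  grp : ∀ (S : Type) [CommRing S] [Algebra (ZMod p) S], AddCommGroup (Pt S)
  map : ∀ {S S' : Type} [CommRing S] [Algebra (ZMod p) S] [CommRing S'] [Algebra (ZMod p) S'],
    (S →ₐ[ZMod p] S') → Pt S →+ Pt S'
  map_id : ∀ {S : Type} [CommRing S] [Algebra (ZMod p) S] (x : Pt S), map (AlgHom.id _ S) x = x
  map_comp : ∀ {S S' S'' : Type} [CommRing S] [Algebra (ZMod p) S] [CommRing S'] [Algebra (ZMod p) S']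
    [CommRing S''] [Algebra (ZMod p) S''] (f : S →ₐ[ZMod p] S') (g : S' →ₐ[ZMod p] S'') (x : Pt S),
    map (g.comp f) x = map g (map f x)
  /-- `O m a` represents `a`-tuples of points killed by `p^m`. -/
  O : ℕ → ℕ → Type
  ring : ∀ m a, CommRing (O m a)
  alg : ∀ m a, Algebra (ZMod p) (O m a)
  u : ∀ m a, Fin a → Pt (O m a)
  u_tor : ∀ m a i, p ^ m • u m a i = 0
  lift : ∀ (m : ℕ) {a : ℕ} {S : Type} [CommRing S] [Algebra (ZMod p) S],
    (Fin a → Pt S) → (O m a →ₐ[ZMod p] S)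
  lift_u : ∀ (m : ℕ) {a : ℕ} {S : Type} [CommRing S] [Algebra (ZMod p) S] (g : Fin a → Pt S),
    (∀ i, p ^ m • g i = 0) → ∀ i, map (lift m g) (u m a i) = g i
  ext : ∀ (m : ℕ) {a : ℕ} {S : Type} [CommRing S] [Algebra (ZMod p) S] (f f' : O m a →ₐ[ZMod p] S),
    (∀ i, map f (u m a i) = map f' (u m a i)) → f = f'
  /-- `p^e : H[p^(A+e)] → H[p^A]` is an epimorphism. -/
  inj : ∀ A e, Function.Injective (lift A (fun _ : Fin 1 => p ^ e • u (A + e) 1 0))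

attribute [instance] GF.grp GF.ring GF.alg

/-- The ambient complex, Frobenius, and the pieces of level `0`. -/
structure Base (p : ℕ) (X : ℕ → Type u) [∀ t, AddCommGroup (X t)] [∀ t, Module (ZMod p) (X t)] where
  d : ∀ t, X t →ₗ[ZMod p] X (t + 1)
  dd : ∀ t x, d (t + 1) (d t x) = 0
  inj0 : ∀ x, d 0 x = 0 → x = 0
  fr : ∀ t, Module.End (ZMod p) (X t)
  fr_bij : ∀ t, Function.Bijective (fr t)
  fr_d : ∀ t x, fr (t + 1) (d t x) = d t (fr t x)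
  q : ℝ
  two_le : 2 ≤ q
  N : ℕ → ℝ → ∀ t, Submodule (ZMod p) (X t)
  mono : ∀ {j j' b b'}, j ≤ j' → b ≤ b' → ∀ t, N j b t ≤ N j' b' t
  N_d : ∀ j b t x, x ∈ N j b t → d t x ∈ N j b (t + 1)
  N_fr : ∀ j b t x, x ∈ N j b t → fr t x ∈ N j (q * b) t

variable {p : ℕ} {X : ℕ → Type u} [∀ t, AddCommGroup (X t)] [∀ t, Module (ZMod p) (X t)]

/-- Level `L ≥ 0`. -/
def Base.NL (B : Base p X) (L j : ℕ) (b : ℝ) (t : ℕ) : Submodule (ZMod p) (X t) :=
  (B.N j (B.q ^ L * b) t).comap (B.fr t ^ L)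

/-- Level `-A`. -/
noncomputable def Base.NA (B : Base p X) (A j : ℕ) (b : ℝ) (t : ℕ) : Submodule (ZMod p) (X t) :=
  (B.N j (b / B.q ^ A) t).map (B.fr t ^ A)

/-- Translation of a function of one point `σ`: `f ↦ f (σ - τ)`. -/
noncomputable def GF.sh (G : GF p) (A : ℕ) {S : Type} [CommRing S] [Algebra (ZMod p) S] (τ : G.Pt S) :
    G.O A 1 →ₐ[ZMod p] S ⊗[ZMod p] G.O A 1 :=
  G.lift A fun _ : Fin 1 =>
    G.map Algebra.TensorProduct.includeRight (G.u A 1 0) - G.map Algebra.TensorProduct.includeLeft τ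

/-- Torsor structure. The points killed by `p^M` act on the pieces `N b`, with loss `D`; `N0 b` are the
invariants of the points killed by `p^A`; `th` is a total integral for these; `ae e` multiplies points
by `1 + p^e`. -/
structure TD (G : GF p) (d : ∀ t, X t →ₗ[ZMod p] X (t + 1)) (fr : ∀ t, Module.End (ZMod p) (X t))
    (ae : ℕ → ∀ t, Module.End (ZMod p) (X t)) (N N0 : ℝ → ∀ t, Submodule (ZMod p) (X t))
    (M A : ℕ) (D : ℝ) where
  al : ∀ {S : Type} [CommRing S] [Algebra (ZMod p) S], G.Pt S → ∀ t, X t →ₗ[ZMod p] S ⊗[ZMod p] X t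
  nat : ∀ {S S' : Type} [CommRing S] [Algebra (ZMod p) S] [CommRing S'] [Algebra (ZMod p) S']
    (f : S →ₐ[ZMod p] S') (τ : G.Pt S), p ^ M • τ = 0 → ∀ b t, ∀ x ∈ N b t,
    f.toLinearMap.rTensor (X t) (al τ t x) = al (G.map f τ) t x
  zero : ∀ {S : Type} [CommRing S] [Algebra (ZMod p) S] b t, ∀ x ∈ N b t,
    al (0 : G.Pt S) t x = 1 ⊗ₜ x
  add : ∀ {S : Type} [CommRing S] [Algebra (ZMod p) S] (τ τ' : G.Pt S), p ^ M • τ = 0 →
    p ^ M • τ' = 0 → ∀ b t, ∀ x ∈ N b t, al (τ + τ') t x = (al τ t).liftBaseChange S (al τ' t x)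
  loss : ∀ {S : Type} [CommRing S] [Algebra (ZMod p) S] (τ : G.Pt S), p ^ M • τ = 0 →
    ∀ b t, ∀ x ∈ N b t, al τ t x ∈ (N (b + D) t).baseChange S
  chain : ∀ {S : Type} [CommRing S] [Algebra (ZMod p) S] (τ : G.Pt S), p ^ M • τ = 0 →
    ∀ b t, ∀ x ∈ N b t, al τ (t + 1) (d t x) = (d t).lTensor S (al τ t x)
  fro : ∀ {S : Type} [CommRing S] [Algebra (ZMod p) S] (τ : G.Pt S), p ^ M • τ = 0 →
    ∀ b t, ∀ x ∈ N b t, al τ t (fr t x) = LinearMap.lTensor S (fr t) (al (p • τ) t x)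
  cen : ∀ {S : Type} [CommRing S] [Algebra (ZMod p) S] (τ : G.Pt S), p ^ M • τ = 0 →
    ∀ e, 1 ≤ e → ∀ b t, ∀ x ∈ N b t,
      al τ t (ae e t x) = LinearMap.lTensor S (ae e t) (al ((1 + p ^ e) • τ) t x)
  th : ∀ t, G.O A 1 →ₗ[ZMod p] X t →ₗ[ZMod p] X t
  th_one : ∀ b t, ∀ x ∈ N b t, th t 1 x = x
  th_loss : ∀ f b t, ∀ x ∈ N b t, th t f x ∈ N (b + D) t
  th_eqv : ∀ {S : Type} [CommRing S] [Algebra (ZMod p) S] (τ : G.Pt S), p ^ A • τ = 0 →
    ∀ f b t, ∀ x ∈ N b t, al τ t (th t f x) =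
      TensorProduct.map₂ (LinearMap.mul (ZMod p) S) (th t) (G.sh A τ f) (al τ t x)
  fix : ∀ {S : Type} [CommRing S] [Algebra (ZMod p) S] (τ : G.Pt S), p ^ A • τ = 0 →
    ∀ b t, ∀ x ∈ N0 b t, al τ t x = 1 ⊗ₜ x
  inv : ∀ b t, ∀ x ∈ N b t, al (G.u A 1 0) t x = 1 ⊗ₜ x → x ∈ N0 (b + D) t

/-- The trace of an operator along a subgroup. -/
noncomputable def trc {k Γ V : Type*} [CommRing k] [Group Γ] [AddCommGroup V] [Module k V]
    (ρ : Γ →* Module.End k V) (H U : Subgroup Γ) (μ : Module.End k V) (x : V) : V :=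
  ∑ᶠ δ : H ⧸ U.subgroupOf H, ρ (δ.out : H) (μ (ρ ((δ.out : H) : Γ)⁻¹ x))

/-- The input of block P. All losses at Igusa level `j` are at most `w ^ (j + 1)`. -/
structure Core (p : ℕ) (X : ℕ → Type u) [∀ t, AddCommGroup (X t)] [∀ t, Module (ZMod p) (X t)]
    (G : GF p) (Γ : Type) [Group Γ] extends Base p X where
  w : ℝ
  one_le : 1 ≤ w
  ρ : ∀ t, Γ →* Module.End (ZMod p) (X t)
  ρ_d : ∀ t g x, ρ (t + 1) g (d t x) = d t (ρ t g x)
  ρ_fr : ∀ t g x, ρ t g (fr t x) = fr t (ρ t g x)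
  ρ_N : ∀ j b t g x, x ∈ N j b t → ρ t g x ∈ N j b t
  Gs : ℕ → Subgroup Γ
  Gs_anti : Antitone Gs
  Gs_normal : ∀ j, (Gs j).Normal
  Gs_fin : ∀ j j', j ≤ j' → ((Gs j').subgroupOf (Gs j)).FiniteIndex
  Gs_fix : ∀ j b t, ∀ g ∈ Gs j, ∀ x ∈ N j b t, ρ t g x = x
  /-- Multiplication by an element of trace one, at all levels `L ≥ 0`. -/
  tr : ∀ j j', j ≤ j' → ∀ t, ∃ μ : Module.End (ZMod p) (X t), ∀ L b, ∀ x ∈ toBase.NL L j' b t,
    μ x ∈ toBase.NL L j' (b + w ^ (j' + 1)) t ∧ trc (ρ t) (Gs j) (Gs j') μ x = x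
  /-- Invariants (only the loss `w ^ (j' + 1)` at level `0` is used). -/
  Gs_inv : ∀ j j', j ≤ j' → ∀ b t, ∀ x ∈ N j' b t, (∀ g ∈ Gs j, ρ t g x = x) →
    x ∈ N j (b + w ^ (j' + 1)) t
  a : ℕ → Γ
  a_comm : ∀ e g, a e * g = g * a e
  td : ∀ j M A, A ≤ M → M ≤ j →
    Nonempty (TD G d fr (fun e t => ρ t (a e)) (N j) (toBase.NA A j) M A (w ^ (j + 1)))
  /-- Boundedness at perfect level, Igusa level infinity. -/
  bnd : ∀ t b, ∃ b', ∀ L j, ∀ x ∈ toBase.NL L j b (t + 1), d _ x = 0 →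
    ∃ L' j', ∃ y ∈ toBase.NL L' j' b' t, d t y = x
  /-- The scalar `1 + p^e` acts trivially after a small shift, at perfect level, Igusa level infinity. -/
  hc : ∀ t, ∃ (r C : ℝ) (e0 : ℕ), ∀ e, e0 ≤ e → ∀ b, 0 ≤ b → ∀ j, ∀ x ∈ N j b (t + 1), d _ x = 0 →
    ∃ L' j', ∃ y ∈ toBase.NL L' j' (b + r * b / q ^ e + C) t, d t y = ρ _ (a e) x - x

/-- The output of block P. -/
def Base.BND (B : Base p X) : Prop :=
  ∀ t j b, ∃ b', ∀ x ∈ B.N j b (t + 1), B.d _ x = 0 → ∃ y ∈ B.N j b' t, B.d t y = x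

end P261.PC
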