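import Vale.Agent.P261Z.PC.Sk
import Vale.Agent.P261Z.PC.Gal

/-! # P261, block P: descent of the Igusa level for filtered families; the cone -/

namespace P261.PC

universe u

theorem exists_unif {α : Type} [SemilatticeSup α] {P : ℕ → α → Prop} (hm : ∀ s, Monotone (P s))
    (a₀ : α) (t : ℕ) (h : ∀ s < t, ∃ a, P s a) : ∃ a, a₀ ≤ a ∧ ∀ s < t, P s a := by
  induction t with
  | zero => exact ⟨a₀, le_rfl, fun s hs => absurd hs (Nat.not_lt_zero s)⟩
  | succ t ih =>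
    obtain ⟨a, h1, h2⟩ := ih fun s hs => h s (by omega)
    obtain ⟨a', h3⟩ := h t (by omega)
    refine ⟨a ⊔ a', h1.trans le_sup_left, fun s hs => ?_⟩
    rcases Nat.lt_succ_iff_lt_or_eq.1 hs with k | rfl
    · exact hm s le_sup_left (h2 s k)
    · exact hm s le_sup_right h3

theorem map_trc {k Γ V V' : Type*} [CommRing k] [Group Γ] [AddCommGroup V] [Module k V]
    [AddCommGroup V'] [Module k V'] {ρ : Γ →* Module.End k V} {ρ' : Γ →* Module.End k V'}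
    {H U : Subgroup Γ} (hf : (U.subgroupOf H).FiniteIndex) {μ : Module.End k V}
    {μ' : Module.End k V'} (φ : V →ₗ[k] V') (h1 : ∀ g x, φ (ρ g x) = ρ' g (φ x))
    (h2 : ∀ x, φ (μ x) = μ' (φ x)) (x : V) : φ (trc ρ H U μ x) = trc ρ' H U μ' (φ x) := by
  rw [trc, trc, map_finsum φ (Set.toFinite _)]
  simp only [h1, h2]

variable {k : Type} [CommRing k] {Γ : Type} [Group Γ] {X : ℕ → Type u} [∀ t, AddCommGroup (X t)]
  [∀ t, Module k (X t)]

/-- A filtered family of subcomplexes with traces from the levels in `J` to the level `j`. -/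
structure Fam (d : ∀ t, X t →ₗ[k] X (t + 1)) (ρ : ∀ t, Γ →* Module.End k (X t))
    (Gs : ℕ → Subgroup Γ) (j : ℕ) (J : Set ℕ) (P : ℕ → ℝ → ∀ t, Submodule k (X t)) (l : ℝ) :
    Prop where
  dd : ∀ t x, d (t + 1) (d t x) = 0
  inj0 : ∀ x, d 0 x = 0 → x = 0
  ρd : ∀ t g x, ρ (t + 1) g (d t x) = d t (ρ t g x)
  anti : Antitone Gs
  normal : ∀ j, (Gs j).Normal
  fin : ∀ j' ∈ J, ((Gs j').subgroupOf (Gs j)).FiniteIndex
  mono : ∀ {j j' b b'}, j ≤ j' → b ≤ b' → ∀ t, P j b t ≤ P j' b' t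
  Pd : ∀ j b t, ∀ x ∈ P j b t, d t x ∈ P j b (t + 1)
  Pρ : ∀ j b t g, ∀ x ∈ P j b t, ρ t g x ∈ P j b t
  fix : ∀ j b t, ∀ g ∈ Gs j, ∀ x ∈ P j b t, ρ t g x = x
  l0 : 0 ≤ l
  tr : ∀ j' ∈ J, ∀ t, ∃ μ : Module.End k (X t), ∀ b, ∀ x ∈ P j' b t,
    μ x ∈ P j' (b + l) t ∧ trc (ρ t) (Gs j) (Gs j') μ x = x

theorem Fam.desc {d : ∀ t, X t →ₗ[k] X (t + 1)} {ρ : ∀ t, Γ →* Module.End k (X t)}
    {Gs : ℕ → Subgroup Γ} {j : ℕ} {J : Set ℕ} {P : ℕ → ℝ → ∀ t, Submodule k (X t)} {l : ℝ}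
    (F : Fam d ρ Gs j J P l) (f : ∀ t, Module.End k (X t))
    (fd : ∀ t x, f (t + 1) (d t x) = d t (f t x)) (fρ : ∀ t g x, f t (ρ t g x) = ρ t g (f t x))
    (t : ℕ) (b : ℕ → ℝ)
    (hf : ∀ i < 2 * t + 1, ∀ j' s, ∀ x ∈ P j' (b i + l) s, f s x ∈ P j' (b (i + 1)) s)
    (hn : ∀ i < 2 * t + 1, ∀ j' ∈ J, ∀ s ≤ t, ∀ x ∈ P j' (b i) (s + 1), d _ x = 0 →
      ∃ j'' ∈ J, ∃ y ∈ P j'' (b (i + 1)) s, f _ x = d s y)
    {j₀ : ℕ} (h0 : j₀ ∈ J) {x : X (t + 1)} (hx : x ∈ P j₀ (b 0) (t + 1)) (h1 : d _ x = 0)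
    (h2 : ∀ g ∈ Gs j, ρ _ g x = x) : ∃ j' ∈ J, ∃ y ∈ P j' (b (2 * t + 1)) t,
      (∀ g ∈ Gs j, ρ t g y = y) ∧ (f _ ^ (2 * t + 1)) x = d t y := by
  have h : GH d (fun t => (ρ t).comp (Gs j).subtype) f (fun i => (Gs i).subgroupOf (Gs j)) J
      (fun i j' => P j' (b i)) (2 * t + 1) t :=
    { dd := F.dd
      inj0 := fun _ _ x _ => F.inj0 x
      ρd := fun t g => F.ρd t g
      fd := fd
      fρ := fun t g => fρ t g
      anti := fun _ _ h => Subgroup.comap_mono (F.anti h)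
      normal := fun i _ => (F.normal i).subgroupOf _
      fin := F.fin
      mono := fun _ _ _ h => F.mono h le_rfl
      Md := fun _ _ => F.Pd _ _
      Mρ := fun _ _ t g => F.Pρ _ _ t g
      Mf := fun i hi j' s x hx => hf i hi j' s x (F.mono le_rfl (le_add_of_nonneg_right F.l0) s hx)
      fix := fun _ j' _ t g hg => F.fix j' _ t g hg
      tr := fun i hi j' hj s => by
        obtain ⟨μ, hμ⟩ := F.tr j' hj s
        refine ⟨f s * μ, fun x hx => ⟨hf i hi j' s _ (hμ _ x hx).1, ?_⟩⟩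
        have := F.fin j' hj
        rw [← (hμ _ x hx).2, trc, map_finsum (f s) (Set.toFinite _), ← trc, (hμ _ x hx).2]
        exact finsum_congr fun δ => (fρ s _ _).symm
      null := hn }
  obtain ⟨j', k1, y, k2, k3, k4⟩ := h.desc t le_rfl 0 (by omega) j₀ h0 x hx h1 fun g => h2 g g.2
  rw [zero_add] at k2
  exact ⟨j', k1, y, k2, fun g hg => k3 ⟨g, hg⟩, k4⟩

/-! ### the cone -/

/-- The previous term. -/
def Pv (X : ℕ → Type u) : ℕ → Type u
  | 0 => PUnit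
  | t + 1 => X t

instance : ∀ t, AddCommGroup (Pv X t)
  | 0 => (inferInstance : AddCommGroup PUnit.{u + 1})
  | t + 1 => (inferInstance : AddCommGroup (X t))

instance : ∀ t, Module k (Pv X t)
  | 0 => (inferInstance : Module k PUnit.{u + 1})
  | t + 1 => (inferInstance : Module k (X t))

/-- The previous differential. -/
def pd (d : ∀ t, X t →ₗ[k] X (t + 1)) : ∀ t, Pv X t →ₗ[k] X t
  | 0 => 0
  | t + 1 => d t

/-- The previous operator. -/
def pv (f : ∀ t, Module.End k (X t)) : ∀ t, Module.End k (Pv X t)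
  | 0 => 1
  | t + 1 => f t

/-- The previous action. -/
def pρ (ρ : ∀ t, Γ →* Module.End k (X t)) : ∀ t, Γ →* Module.End k (Pv X t)
  | 0 => 1
  | t + 1 => ρ t

/-- The previous submodule. -/
def pN (N : ∀ t, Submodule k (X t)) : ∀ t, Submodule k (Pv X t)
  | 0 => ⊤
  | t + 1 => N t

/-- The differential of the cone. -/
def cd (d : ∀ t, X t →ₗ[k] X (t + 1)) (t : ℕ) : X t × Pv X t →ₗ[k] X (t + 1) × Pv X (t + 1) :=
  (d t ∘ₗ .fst k _ _).prod (.fst k (X t) (Pv X t) - pd d t ∘ₗ .snd k _ _ : _ →ₗ[k] X t)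

/-- The action on the cone. -/
def cρ (ρ : ∀ t, Γ →* Module.End k (X t)) (t : ℕ) : Γ →* Module.End k (X t × Pv X t) where
  toFun g := (ρ t g).prodMap (pρ ρ t g)
  map_one' := by rw [map_one, map_one, LinearMap.prodMap_one]
  map_mul' g g' := by rw [map_mul, map_mul, LinearMap.prodMap_mul]

theorem Fam.cone {d : ∀ t, X t →ₗ[k] X (t + 1)} {ρ : ∀ t, Γ →* Module.End k (X t)}
    {Gs : ℕ → Subgroup Γ} {j : ℕ} {J : Set ℕ} {P P' : ℕ → ℝ → ∀ t, Submodule k (X t)} {l : ℝ}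
    (F : Fam d ρ Gs j J P l) (F' : Fam d ρ Gs j J P' l) (h : ∀ j b t, P j b t ≤ P' j b t) :
    Fam (cd d) (cρ ρ) Gs j J (fun j b t => (P j b t).prod (pN (P' j b) t)) l where
  dd t x := by
    refine Prod.ext (F.dd t x.1) ?_
    change d t x.1 - d t (x.1 - pd d t x.2) = 0
    rw [map_sub, sub_sub_cancel]
    cases t
    exacts [map_zero _, F.dd _ _]
  inj0 x hx := Prod.ext ((sub_zero _).symm.trans (congrArg Prod.snd hx)) rfl
  ρd t g x := by
    refine Prod.ext (F.ρd t g x.1) ?_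
    change ρ t g (x.1 - pd d t x.2) = ρ t g x.1 - pd d t (pρ ρ t g x.2)
    rw [map_sub]
    cases t
    exacts [congrArg _ (map_zero _), congrArg _ (F.ρd _ _ _)]
  anti := F.anti
  normal := F.normal
  fin := F.fin
  mono h1 h2 t := Submodule.prod_mono (F.mono h1 h2 t) (by
    cases t
    exacts [le_rfl, F'.mono h1 h2 _])
  Pd j b t x hx := by
    refine ⟨F.Pd j b t _ hx.1, (P' j b t).sub_mem (h j b t hx.1) ?_⟩
    cases t
    exacts [zero_mem _, F'.Pd j b _ _ hx.2]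
  Pρ j b t g x hx := by
    refine ⟨F.Pρ j b t g _ hx.1, ?_⟩
    cases t
    exacts [trivial, F'.Pρ j b _ g _ hx.2]
  fix j b t g hg x hx := by
    refine Prod.ext (F.fix j b t g hg _ hx.1) ?_
    cases t
    exacts [rfl, F'.fix j b _ g hg _ hx.2]
  l0 := F.l0
  tr j' hj t := by
    choose μ hμ using F.tr j' hj
    choose μ' hμ' using F'.tr j' hj
    refine ⟨(μ t).prodMap (pv μ' t), fun b x hx => ⟨⟨(hμ t b _ hx.1).1, ?_⟩, Prod.ext
      ((map_trc (ρ := cρ ρ t) (μ := (μ t).prodMap (pv μ' t)) (F.fin j' hj) (LinearMap.fst k _ _)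
        (fun _ _ => rfl) (fun _ => rfl) x).trans (hμ t b _ hx.1).2) ?_⟩⟩
    · cases t
      exacts [trivial, (hμ' _ b _ hx.2).1]
    · rcases t with - | t
      · rfl
      · exact (map_trc (ρ := cρ ρ (t + 1)) (μ := (μ _).prodMap (pv μ' _)) (F.fin j' hj)
          (LinearMap.snd k _ _) (fun _ _ => rfl) (fun _ => rfl) x).trans (hμ' _ b _ hx.2).2

theorem fst_pow {V V' : Type*} [AddCommGroup V] [Module k V] [AddCommGroup V'] [Module k V']
    (f : Module.End k V) (g : Module.End k V') (n : ℕ) (x : V × V') :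
    (((f.prodMap g : Module.End k (V × V')) ^ n) x).1 = (f ^ n) x.1 := by
  induction n generalizing x with
  | zero => rfl
  | succ n ih => rw [pow_succ, pow_succ]; exact ih _

/-- Descent of a relative statement. -/
theorem Fam.rel {p : ℕ} {X : ℕ → Type u} [∀ t, AddCommGroup (X t)] [∀ t, Module (ZMod p) (X t)]
    {d : ∀ t, X t →ₗ[ZMod p] X (t + 1)} {ρ : ∀ t, Γ →* Module.End (ZMod p) (X t)}
    {Gs : ℕ → Subgroup Γ} {j j' : ℕ} {P P' : ℕ → ℝ → ∀ t, Submodule (ZMod p) (X t)} {l : ℝ}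
    (F : Fam d ρ Gs j {j'} P l) (F' : Fam d ρ Gs j {j'} P' l) (h : ∀ j b t, P j b t ≤ P' j b t)
    (f : ∀ t, Module.End (ZMod p) (X t))
    (fd : ∀ t x, f (t + 1) (d t x) = d t (f t x)) (fρ : ∀ t g x, f t (ρ t g x) = ρ t g (f t x))
    (t : ℕ) (b : ℕ → ℝ)
    (hf : ∀ i < 2 * t + 1, ∀ j' s, ∀ x ∈ P j' (b i + l) s, f s x ∈ P j' (b (i + 1)) s)
    (hf' : ∀ i < 2 * t + 1, ∀ j' s, ∀ x ∈ P' j' (b i + l) s, f s x ∈ P' j' (b (i + 1)) s)
    (hn : ∀ i < 2 * t + 1, ∀ s ≤ t, ∀ y ∈ P' j' (b i) s, d s y ∈ P j' (b i) (s + 1) →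
      f s y ∈ P j' (b (i + 1)) s ⊔ Bd d (P' j' (b (i + 1))) s)
    {y : X t} (hy : y ∈ P' j' (b 0) t) (h1 : d t y ∈ P j' (b 0) (t + 1))
    (h2 : ∀ g ∈ Gs j, ρ t g y = y) : ∃ x ∈ P j' (b (2 * t + 1)) t,
      (∀ g ∈ Gs j, ρ t g x = x) ∧ (f _ ^ (2 * t + 1)) (d t y) = d t x := by
  obtain ⟨_, rfl, x, k1, k2, k3⟩ := (F.cone F' h).desc (fun t => (f t).prodMap (pv f t))
    (fun t x => Prod.ext (fd t x.1) (by
      change f t (x.1 - pd d t x.2) = f t x.1 - pd d t (pv f t x.2)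
      rw [map_sub]
      cases t
      exacts [congrArg _ (map_zero _), congrArg _ (fd _ _)]))
    (fun t g x => Prod.ext (fρ t g x.1) (by
      cases t
      exacts [rfl, fρ _ _ _])) t b
    (fun i hi j' s x hx => ⟨hf i hi j' s _ hx.1, by
      cases s
      exacts [trivial, hf' i hi j' _ _ hx.2]⟩)
    (by
      rintro i hi j' rfl s hs ⟨x, y⟩ hx hd
      change X s at y
      obtain rfl : x = d s y := sub_eq_zero.1 (congrArg Prod.snd hd)
      obtain ⟨u, hu, v, hv, e⟩ := Submodule.mem_sup.1 (hn i hi s hs y hx.2 hx.1)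
      obtain ⟨z, hz, rfl⟩ : ∃ z ∈ pN (P' j' (b (i + 1))) s, pd d s z = v := by
        cases s
        exacts [⟨0, trivial, hv.symm⟩, hv]
      refine ⟨_, rfl, (u, -z), ⟨hu, neg_mem hz⟩, Prod.ext ?_ ?_⟩
      · change f _ (d s y) = d s u
        rw [fd, ← e, map_add, add_eq_left]
        cases s
        exacts [map_zero _, F.dd _ _]
      · change f s y = u - pd d s (-z)
        rw [map_neg, sub_neg_eq_add, e])
    (j₀ := j') rfl (x := (d t y, y)) ⟨h1, hy⟩ (Prod.ext (F.dd t y) (sub_self _))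
    fun g hg => Prod.ext ((F.ρd t g y).trans (congrArg _ (h2 g hg))) (h2 g hg)
  exact ⟨x.1, k1.1, fun g hg => congrArg Prod.fst (k2 g hg),
    (fst_pow _ _ _ _).symm.trans (congrArg Prod.fst k3)⟩

end P261.PC
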