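import Mathlib

/-! Ghost lemma by dimension shifting (second page form). -/

namespace P261.PC

universe u

/-- A double complex with stages. `K a t`: column `a`, degree `t`; `S i`: stage `i`;
`ps` is the transition from a stage to the next one; the laws hold for stages `i < M`. -/
structure DC (k : Type) [CommRing k] (K : ℕ → ℕ → Type u) [∀ a t, AddCommGroup (K a t)]
    [∀ a t, Module k (K a t)] (M : ℕ) where
  d : ∀ a t, K a t →ₗ[k] K a (t + 1)
  de : ∀ a t, K a t →ₗ[k] K (a + 1) t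
  ps : ∀ a t, Module.End k (K a t)
  S : ℕ → ∀ a t, Submodule k (K a t)
  dd : ∀ a t x, d a (t + 1) (d a t x) = 0
  ee : ∀ a t x, de (a + 1) t (de a t x) = 0
  ed : ∀ a t x, de a (t + 1) (d a t x) = d (a + 1) t (de a t x)
  pd : ∀ a t x, ps a (t + 1) (d a t x) = d a t (ps a t x)
  pe : ∀ a t x, ps (a + 1) t (de a t x) = de a t (ps a t x)
  Sd : ∀ i a t x, x ∈ S i a t → d a t x ∈ S i a (t + 1)
  Se : ∀ i a t x, x ∈ S i a t → de a t x ∈ S i (a + 1) t
  Sp : ∀ i, i < M → ∀ a t x, x ∈ S i a t → ps a t x ∈ S (i + 1) a t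
  base : ∀ i a x, x ∈ S i a 0 → d a 0 x = 0 → x = 0
  row : ∀ i, i < M → ∀ a t x, x ∈ S i (a + 1) t → de (a + 1) t x = 0 →
    ∃ y ∈ S (i + 1) a t, ps (a + 1) t x = de a t y

namespace DC

variable {k : Type} [CommRing k] {K : ℕ → ℕ → Type u} [∀ a t, AddCommGroup (K a t)]
  [∀ a t, Module k (K a t)] {M : ℕ} (D : DC k K M)

/-- The transition vanishes on the second page in columns `≥ 1`, total degree `≤ T`. -/
def E2 (T : ℕ) : Prop :=
  ∀ i, i < M → ∀ a t, a + t ≤ T → ∀ x ∈ D.S i (a + 1) (t + 1), D.d _ _ x = 0 → D.de _ _ x = 0 →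
    ∃ w ∈ D.S (i + 1) a (t + 1), ∃ u ∈ D.S (i + 1) (a + 1) t,
      D.d _ _ w = 0 ∧ (a = 0 → w = 0) ∧ D.ps _ _ x = D.de _ _ w + D.d _ _ u

/-- The transition vanishes on the cohomology of all columns in degrees `≤ T + 1`. -/
def Col (T : ℕ) : Prop :=
  ∀ i, i < M → ∀ a t, t ≤ T → ∀ x ∈ D.S i a (t + 1), D.d _ _ x = 0 →
    ∃ u ∈ D.S (i + 1) a t, D.ps _ _ x = D.d _ _ u

theorem Col.e2 {D : DC k K M} {T : ℕ} (h : D.Col T) : D.E2 T := by
  intro i hi a t hat x hx h1 _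
  obtain ⟨u, hu, e⟩ := h i hi (a + 1) t (by omega) x hx h1
  exact ⟨0, zero_mem _, u, hu, map_zero _, fun _ => rfl, by rw [e, map_zero, zero_add]⟩

theorem pow_d (n a t : ℕ) (x : K a t) :
    (D.ps a (t + 1) ^ n) (D.d a t x) = D.d a t ((D.ps a t ^ n) x) := by
  induction n with
  | zero => simp
  | succ n ih => rw [pow_succ', pow_succ', Module.End.mul_apply, Module.End.mul_apply, ih, D.pd]

theorem pow_e (n a t : ℕ) (x : K a t) :
    (D.ps (a + 1) t ^ n) (D.de a t x) = D.de a t ((D.ps a t ^ n) x) := by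
  induction n with
  | zero => simp
  | succ n ih => rw [pow_succ', pow_succ', Module.End.mul_apply, Module.End.mul_apply, ih, D.pe]

theorem pow_S (n i : ℕ) (h : i + n ≤ M) (a t : ℕ) (x : K a t) (hx : x ∈ D.S i a t) :
    (D.ps a t ^ n) x ∈ D.S (i + n) a t := by
  induction n with
  | zero => simpa using hx
  | succ n ih =>
    rw [pow_succ', Module.End.mul_apply]
    exact D.Sp (i + n) (by omega) a t _ (ih (by omega))

theorem claim {T : ℕ} (h : D.E2 T) (t : ℕ) : ∀ a i, a + t ≤ T → i + (2 * t + 1) ≤ M →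
    ∀ x ∈ D.S i (a + 1) (t + 1), D.d _ _ x = 0 → D.de _ _ x = 0 →
    ∃ w ∈ D.S (i + (2 * t + 1)) a (t + 1), ∃ u ∈ D.S (i + (2 * t + 1)) (a + 1) t,
      D.d _ _ w = 0 ∧ (a = 0 → w = 0) ∧ D.de _ _ u = 0 ∧
      (D.ps _ _ ^ (2 * t + 1)) x = D.de _ _ w + D.d _ _ u := by
  induction t with
  | zero =>
    intro a i hat hi x hx h1 h2
    obtain ⟨w, hw, u, hu, e1, e2, e3⟩ := h i (by omega) a 0 hat x hx h1 h2
    refine ⟨w, hw, u, hu, e1, e2, ?_, by simpa using e3⟩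
    apply D.base (i + 1) _ _ (D.Se _ _ _ _ hu)
    rw [← D.ed, show D.d _ _ u = D.ps _ _ x - D.de _ _ w by rw [e3]; abel, map_sub, D.ee,
      ← D.pe, h2, map_zero, sub_zero]
  | succ t ih =>
    intro a i hat hi x hx h1 h2
    obtain ⟨w, hw, u, hu, e1, e2, e3⟩ := h i (by omega) a (t + 1) hat x hx h1 h2
    have hdu : D.d _ _ (D.de _ _ u) = 0 := by
      rw [← D.ed, show D.d _ _ u = D.ps _ _ x - D.de _ _ w by rw [e3]; abel, map_sub, D.ee,
        ← D.pe, h2, map_zero, sub_zero]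
    obtain ⟨w', hw', z, hz, f1, -, f3, f4⟩ :=
      ih (a + 1) (i + 1) (by omega) (by omega) _ (D.Se _ _ _ _ hu) hdu (D.ee _ _ _)
    obtain ⟨z', hz', f5⟩ := D.row _ (by omega) _ _ z hz f3
    have hidx : i + (2 * (t + 1) + 1) = i + 1 + (2 * t + 1) + 1 := by omega
    have hidx' : i + (2 * (t + 1) + 1) = i + 1 + (2 * t + 1 + 1) := by omega
    refine ⟨(D.ps _ _ ^ (2 * t + 1 + 1)) w, ?_,
      (D.ps _ _ ^ (2 * t + 1 + 1)) u - D.ps _ _ w' - D.d _ _ z', ?_, ?_, ?_, ?_, ?_⟩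
    · rw [hidx']; exact D.pow_S _ _ (by omega) _ _ _ hw
    · refine sub_mem (sub_mem ?_ ?_) ?_
      · rw [hidx']; exact D.pow_S _ _ (by omega) _ _ _ hu
      · rw [hidx]; exact D.Sp _ (by omega) _ _ _ hw'
      · rw [hidx]; exact D.Sd _ _ _ _ hz'
    · rw [← D.pow_d, e1, map_zero]
    · intro ha; rw [e2 ha, map_zero]
    · rw [map_sub, map_sub, D.ed, ← f5, ← D.pd, ← D.pe, ← D.pow_e, pow_succ',
        Module.End.mul_apply, f4, map_add]
      abel
    · rw [map_sub, map_sub, D.dd, ← D.pd, f1, map_zero, sub_zero, sub_zero, ← D.pow_d,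
        ← D.pow_e, ← map_add, ← e3, show 2 * (t + 1) + 1 = (2 * t + 1 + 1) + 1 by omega,
        pow_succ (D.ps _ _) (2 * t + 1 + 1), Module.End.mul_apply]

/-- Relative form: an element of column `0` whose differential is `de`-closed is, after the
transitions, `de`-closed up to a boundary. -/
theorem rel {T : ℕ} (h : D.E2 T) (t : ℕ) (ht : t ≤ T) (i : ℕ) (hi : i + (2 * t + 2) ≤ M)
    (y : K 0 (t + 1)) (hy : y ∈ D.S i 0 (t + 1)) (h1 : D.de _ _ (D.d _ _ y) = 0) :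
    ∃ x ∈ D.S (i + (2 * t + 2)) 0 (t + 1), ∃ z ∈ D.S (i + (2 * t + 2)) 0 t,
      D.de _ _ x = 0 ∧ (D.ps _ _ ^ (2 * t + 2)) y = x + D.d _ _ z := by
  obtain ⟨w, -, u, hu, -, e2, e3, e4⟩ := D.claim h t 0 i (by omega) (by omega) _
    (D.Se _ _ _ _ hy) (by rw [← D.ed, h1]) (D.ee _ _ _)
  obtain ⟨z, hz, e5⟩ := D.row _ (by omega) _ _ u hu e3
  have hz' : z ∈ D.S (i + (2 * t + 2)) 0 t := hz
  refine ⟨(D.ps _ _ ^ (2 * t + 2)) y - D.d _ _ z,
    sub_mem (D.pow_S _ _ hi _ _ _ hy) (D.Sd _ _ _ _ hz'), z, hz', ?_, by abel⟩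
  rw [map_sub, D.ed, ← e5, ← D.pd, ← D.pow_e, pow_succ', Module.End.mul_apply, e4, e2 rfl,
    map_zero]
  simp

/-- First page form: the transitions kill the cohomology of the `de`-closed part of column `0`. -/
theorem e1 {T : ℕ} (h : D.Col T) (t : ℕ) (ht : t ≤ T) (i : ℕ) (hi : i + (2 * t + 1) ≤ M)
    (x : K 0 (t + 1)) (hx : x ∈ D.S i 0 (t + 1)) (h1 : D.d _ _ x = 0) (h2 : D.de _ _ x = 0) :
    ∃ y ∈ D.S (i + (2 * t + 1)) 0 t, D.de _ _ y = 0 ∧ (D.ps _ _ ^ (2 * t + 1)) x = D.d _ _ y := by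
  obtain ⟨y, hy, e⟩ := h i (by omega) 0 t ht x hx h1
  have h3 : D.de _ _ (D.d _ _ y) = 0 := by rw [← e, ← D.pe, h2, map_zero]
  cases t with
  | zero =>
    refine ⟨y, hy, ?_, by simpa using e⟩
    exact D.base _ _ _ (D.Se _ _ _ _ hy) (by rw [← D.ed, h3])
  | succ t =>
    obtain ⟨x', hx', z, -, e1, e2⟩ := D.rel h.e2 t (by omega) (i + 1) (by omega) y hy h3
    refine ⟨x', ?_, e1, ?_⟩
    · rw [show i + (2 * (t + 1) + 1) = i + 1 + (2 * t + 2) by omega]; exact hx'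
    · rw [show 2 * (t + 1) + 1 = (2 * t + 2) + 1 by omega, pow_succ, Module.End.mul_apply, e,
        D.pow_d, e2, map_add, D.dd, add_zero]

end DC

end P261.PC
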