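import Vale.Agent.P261Z.PC.H4

/-! Descent along the torsor: triviality of the action on cohomology, and the step `H3`. -/

namespace P261.PC

open scoped TensorProduct
open P261.Cs GF

universe u

theorem one_add_pow_nat (x n : ℕ) : ∃ y, (1 + x) ^ n = 1 + n * x + x ^ 2 * y := by
  induction n with
  | zero => exact ⟨0, by simp⟩
  | succ n ih =>
    obtain ⟨y, h⟩ := ih
    exact ⟨n + y + x * y, by rw [pow_succ, h]; ring⟩

theorem pow_unit {p e : ℕ} (he : 2 ≤ e) (μ : ℕ) :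
    ∃ c, c.Coprime p ∧ (1 + p ^ e) ^ p ^ μ = 1 + c * p ^ (e + μ) := by
  induction μ with
  | zero => exact ⟨1, by simp, by simp⟩
  | succ μ ih =>
    obtain ⟨c, hc, h⟩ := ih
    obtain ⟨y, hy⟩ := one_add_pow_nat (c * p ^ (e + μ)) p
    obtain ⟨e', rfl⟩ := Nat.exists_eq_add_of_le' he
    refine ⟨c + p * (c ^ 2 * p ^ (e' + μ) * y), by simpa using hc, ?_⟩
    rw [pow_succ p μ, pow_mul, h, hy]; ring

namespace TD

variable {p : ℕ} {X : ℕ → Type u} [∀ t, AddCommGroup (X t)] [∀ t, Module (ZMod p) (X t)] {G : GF p}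
  {d : ∀ t, X t →ₗ[ZMod p] X (t + 1)} {fr : ∀ t, Module.End (ZMod p) (X t)}
  {ae : ℕ → ∀ t, Module.End (ZMod p) (X t)} {N N0 : ℝ → ∀ t, Submodule (ZMod p) (X t)}
  {M A : ℕ} {q D : ℝ} (T : TD G d fr ae N N0 M A D)
  {S : Type} [CommRing S] [Algebra (ZMod p) S]

theorem ae_pow (H : HB d fr ae N q D) (e n : ℕ) {b : ℝ} {t : ℕ} {x : X t} (hx : x ∈ N b t) :
    (ae e t ^ n) x ∈ N b t := by
  induction n with
  | zero => simpa using hx
  | succ n ih => rw [pow_succ']; exact H.ae_N _ _ _ _ ih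

theorem al_cen (H : HB d fr ae N q D) {e : ℕ} (he : 1 ≤ e) (n : ℕ) {b : ℝ} {t : ℕ} {x : X t}
    (hx : x ∈ N b t) : ∀ τ ∈ G.tor M S, T.al τ t ((ae e t ^ n) x) =
      LinearMap.lTensor S (ae e t ^ n) (T.al ((1 + p ^ e) ^ n • τ) t x) := by
  induction n with
  | zero => intro τ _; simp [Module.End.one_eq_id]
  | succ n ih =>
    intro τ hτ
    rw [pow_succ', Module.End.mul_apply, T.cen τ hτ e he _ t _ (ae_pow H e n hx),
      ih _ (nsmul_mem hτ _), Module.End.mul_eq_comp, LinearMap.lTensor_comp, smul_smul, pow_succ]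
    rfl

theorem act_B {c : ℝ} {s : ℕ} {τ : G.Pt S} (hτ : τ ∈ G.tor M S) {z : S ⊗[ZMod p] X (s + 1)}
    (hz : z ∈ ((N c s).map (d s)).baseChange S) :
    T.act τ _ z ∈ ((N (c + D) s).map (d s)).baseChange S := by
  obtain ⟨y, hy, rfl⟩ := bc_of_map _ hz
  rw [T.act_chain hτ hy]
  exact bc_lT _ (fun x hx => Submodule.mem_map_of_mem hx) (T.act_loss hτ hy)

variable [Fact p.Prime]

theorem triv0 (H : HB d fr ae N q D) {e n r s : ℕ} (he : 1 ≤ e) {b c : ℝ}
    (hP : ∀ x ∈ N (b + D) (s + 1), d _ x = 0 → ∃ y ∈ N c s, d s y = (fr _ ^ r) ((ae e _ ^ n) x - x))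
    {w : X (s + 1)} (hw : w ∈ N b (s + 1)) (h0 : d _ w = 0) {τ : G.Pt S} (hτ : τ ∈ G.tor M S) :
    T.al (-τ + (1 + p ^ e) ^ n • τ) _ ((fr _ ^ r) w) - 1 ⊗ₜ (fr _ ^ r) w ∈
      ((N (c + D + D) s).map (d s)).baseChange S := by
  set E : X (s + 1) →ₗ[ZMod p] X (s + 1) := (fr _ ^ r) ∘ₗ (ae e _ ^ n) - (fr _ ^ r) with hE
  have hE1 : ∀ x ∈ N (b + D) (s + 1) ⊓ LinearMap.ker (d _), E x ∈ (N c s).map (d s) := by
    intro x hx
    obtain ⟨y, hy, e1⟩ := hP x hx.1 hx.2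
    exact ⟨y, hy, by rw [e1, map_sub]; rfl⟩
  have hτ' : (1 + p ^ e) ^ n • τ ∈ G.tor M S := nsmul_mem hτ _
  have hτ'' : p ^ r • (1 + p ^ e) ^ n • τ ∈ G.tor M S := nsmul_mem hτ' _
  have hw' := fr_pow H r hw
  have h1 := T.act_B hτ (Submodule.tmul_mem_baseChange_of_mem (1 : S)
    (hE1 w ⟨H.mono _ _ (le_add_of_nonneg_right H.D0) _ hw, h0⟩))
  have h2 := bc_lT E hE1 (bc_ker (d _) (T.loss _ hτ'' b _ w hw)
    (by rw [← T.chain _ hτ'' b _ w hw, h0, map_zero]))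
  have cm : Commute (ae e (s + 1)) (fr (s + 1)) := LinearMap.ext (H.ae_fr e _)
  have e1 : T.al τ _ ((fr _ ^ r) ((ae e _ ^ n) w)) = LinearMap.lTensor S ((fr _ ^ r) ∘ₗ (ae e _ ^ n))
      (T.al (p ^ r • (1 + p ^ e) ^ n • τ) _ w) := by
    rw [← Module.End.mul_apply, ← Module.End.mul_eq_comp, ← (cm.pow_pow n r).eq,
      Module.End.mul_apply, T.al_cen H he n hw' τ hτ, T.al_fro H r hw _ hτ', Module.End.mul_eq_comp,
      LinearMap.lTensor_comp]
    rfl
  have h3 : T.al ((1 + p ^ e) ^ n • τ) _ ((fr _ ^ r) w) - T.al τ _ ((fr _ ^ r) w) ∈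
      ((N (c + D) s).map (d s)).baseChange S := by
    have := sub_mem h1 (Submodule.baseChange_mono S
      (Submodule.map_mono (H.mono _ _ (le_add_of_nonneg_right H.D0) _)) h2)
    rw [act_tmul, one_smul, hE, LinearMap.sub_apply, map_sub, LinearMap.lTensor_sub,
      LinearMap.sub_apply, LinearMap.comp_apply, e1, ← T.al_fro H r hw _ hτ'] at this
    convert this using 1
    abel
  have h4 := T.act_B (neg_mem hτ) h3
  rw [map_sub] at h4
  rw [T.add _ _ (neg_mem hτ) hτ' _ _ _ hw', ← T.zero (S := S) _ _ _ hw', ← neg_add_cancel τ,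
    T.add _ _ (neg_mem hτ) hτ _ _ _ hw']
  exact h4

theorem triv (H : HB d fr ae N q D) {e μ r s : ℕ} (he : 2 ≤ e) (hM : A + e + μ ≤ M) {b c : ℝ}
    (hP : ∀ x ∈ N (b + D) (s + 1), d _ x = 0 →
      ∃ y ∈ N c s, d s y = (fr _ ^ r) ((ae e _ ^ p ^ μ) x - x))
    {σ : G.Pt S} (hσ : σ ∈ G.tor A S) {z : S ⊗[ZMod p] X (s + 1)}
    (hz : z ∈ (N b (s + 1) ⊓ LinearMap.ker (d _)).baseChange S) :
    T.act σ _ (LinearMap.lTensor S (fr _ ^ r) z) - LinearMap.lTensor S (fr _ ^ r) z ∈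
      ((N (c + 2 * D) s).map (d s)).baseChange S := by
  refine bc_ind (P := fun z => T.act σ _ (LinearMap.lTensor S (fr _ ^ r) z) -
      LinearMap.lTensor S (fr _ ^ r) z ∈ ((N (c + 2 * D) s).map (d s)).baseChange S) hz (by simp)
    (fun s0 w hw => ?_) fun a b h1 h2 => by
      rw [map_add, map_add, add_sub_add_comm]; exact add_mem h1 h2
  obtain ⟨c0, hc, hn⟩ := pow_unit (p := p) he μ
  have hco : c0.Coprime (p ^ (A + (e + μ))) := hc.pow_right _
  have hpos : 0 < p ^ (A + (e + μ)) := pow_pos (Fact.out : p.Prime).pos _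
  obtain ⟨k, hk⟩ := Nat.exists_eq_succ_of_ne_zero (Nat.totient_pos.2 hpos).ne'
  have hmod := Nat.ModEq.pow_totient hco
  have hu : G.u (A + (e + μ)) 1 0 ∈ G.tor M _ := tor_le (by omega) (tor_u _ _)
  have h1 := T.triv0 H (by omega) hP hw.1 hw.2 (nsmul_mem hu (c0 ^ k))
  have e1 : -(c0 ^ k • G.u (A + (e + μ)) 1 0) + (1 + p ^ e) ^ p ^ μ • c0 ^ k • G.u (A + (e + μ)) 1 0 =
      p ^ (e + μ) • G.u (A + (e + μ)) 1 0 := by
    rw [hn, add_smul, one_smul, neg_add_cancel_left, mul_comm, mul_smul, smul_smul c0, ← pow_succ',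
      ← Nat.succ_eq_add_one, ← hk]
    have hc0 : 0 < c0 := Nat.pos_of_ne_zero (by
      rintro rfl
      exact (Fact.out : p.Prime).one_lt.ne' (by simpa using hc))
    obtain ⟨l, hl⟩ := (Nat.modEq_iff_dvd' (Nat.one_le_pow _ _ hc0)).1 hmod.symm
    rw [(Nat.sub_eq_iff_eq_add (Nat.one_le_pow _ _ hc0)).1 hl, add_smul,
      mul_comm, mul_smul, G.u_tor, smul_zero, zero_add, one_smul]
  have hA : A ≤ M := by omega
  have hw' := fr_pow H r hw.1
  have ht : ∀ _ : Fin 1, p ^ A • p ^ (e + μ) • G.u (A + (e + μ)) 1 0 = 0 := fun _ => by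
    rw [smul_smul, ← pow_add, G.u_tor]
  obtain ⟨ret, hret⟩ := LinearMap.exists_leftInverse_of_injective
    (G.lift A (fun _ : Fin 1 => p ^ (e + μ) • G.u (A + (e + μ)) 1 0)).toLinearMap
    (LinearMap.ker_eq_bot.2 (G.inj A (e + μ)))
  rw [e1, ← G.lift_u A _ ht 0, ← T.nat _ _ (tor_le hA (tor_u 1 0)) _ _ _ hw'] at h1
  have h2' := bc_rT ret h1
  have e2 : ret 1 = 1 := by simpa using LinearMap.congr_fun hret 1
  rw [map_sub, ← LinearMap.rTensor_comp_apply, hret, LinearMap.rTensor_id,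
    LinearMap.id_apply, LinearMap.rTensor_tmul, e2] at h2'
  have h2 := bc_rT (G.lift A fun _ : Fin 1 => σ).toLinearMap h2'
  rw [map_sub, T.nat _ _ (tor_le hA (tor_u 1 0)) _ _ _ hw', G.lift_u A _ fun _ => hσ,
    LinearMap.rTensor_tmul, AlgHom.toLinearMap_apply, map_one, add_assoc, ← two_mul] at h2
  have h3 := Submodule.smul_mem _ s0 h2
  rwa [smul_sub, ← act_tmul, TensorProduct.smul_tmul', smul_eq_mul, mul_one] at h3

theorem ps_add (r r' a t : ℕ) (F : G.O A a ⊗[ZMod p] X t) :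
    ps G fr A (r + r') a t F = ps G fr A r' a t (ps G fr A r a t F) := by
  rw [← ev_u (ps G fr A (r + r') a t F), ← ev_u (ps G fr A r' a t _), ev_ps _ (tor_u _),
    ev_ps _ (tor_u _), ev_ps _ fun i => nsmul_mem (tor_u _ i) _, add_comm r r', pow_add,
    Module.End.mul_eq_comp, LinearMap.lTensor_comp]
  simp only [smul_smul, ← pow_add, add_comm r r']
  rfl

theorem ps_triv (r a t : ℕ) (f : G.O A a ⊗[ZMod p] X t) :
    ps G fr A r (a + 1) t (G.ev A _ (df (G.u A (a + 1))) f) = G.ev A _ (df (G.u A (a + 1)))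
      (LinearMap.lTensor _ (fr t ^ r) ((G.pw A a r).toLinearMap.rTensor _ f)) := by
  rw [← ev_u (ps G fr A r (a + 1) t _), ev_ps _ (tor_u _), ev_lT, ev_pw _ (tor_df (tor_u _)),
    ev_ev _ (tor_df (tor_u _))]
  congr 3
  funext i
  simp only [df, map_sub, smul_sub]
  rw [G.lift_u A _ fun i => (nsmul_mem (tor_u _ i) _ : _ ∈ G.tor A _),
    G.lift_u A _ fun i => (nsmul_mem (tor_u _ i) _ : _ ∈ G.tor A _)]

theorem ev0_triv {V : Type u} [AddCommGroup V] [Module (ZMod p) V] (a : ℕ) (f : G.O A a ⊗[ZMod p] V) :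
    G.ev A V (Fin.cons 0 (G.u A a)) (G.ev A V (df (G.u A (a + 1))) f) = f := by
  rw [ev_ev _ (tor_df (tor_u _))]
  refine Eq.trans ?_ (ev_u f)
  congr 2
  funext i
  simp only [df, map_sub, G.lift_u A _ (tor_cons (zero_mem (G.tor A _)) (tor_u a))]
  simp

theorem e2 (hN : G.NUL) (H : HB d fr ae N q D) {e μ r t a s : ℕ} (he : 2 ≤ e) (hM : A + e + μ ≤ M)
    (ha : a + 1 < p ^ t) {b c b' : ℝ} (hb : q ^ (r + t) * b + D ≤ b') (hc : q ^ t * (c + 2 * D) + D ≤ b')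
    (hP : ∀ x ∈ N (b + D) (s + 1), d _ x = 0 →
      ∃ y ∈ N c s, d s y = (fr _ ^ r) ((ae e _ ^ p ^ μ) x - x))
    {F : G.O A (a + 2) ⊗[ZMod p] X (s + 1)} (hF : F ∈ T.St b (a + 2) (s + 1))
    (h1 : (d _).lTensor _ F = 0) (h2 : (G.cO A _).d (a + 1) F = 0) :
    ∃ W ∈ T.St b' (a + 1) (s + 1), ∃ U ∈ T.St b' (a + 2) s, (d _).lTensor _ W = 0 ∧ (a = 0 → W = 0) ∧
      ps G fr A (r + t) (a + 2) _ F = (G.cO A _).d a W + (d s).lTensor _ U := by
  have hA : A ≤ M := by omega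
  obtain ⟨h, h', h0, hh⟩ := hN A a t ha
  have hf := ev_bc (Fin.cons 0 (G.u A (a + 1))) (bc_ker _ hF.1 h1)
  have hfF := hF.2.hom_ev
  generalize G.ev A _ (Fin.cons 0 (G.u A (a + 1))) F = f at hf hfF
  have hfN := Submodule.baseChange_mono _ inf_le_left hf
  have hf1 := bc_rT (G.pw A (a + 1) r).toLinearMap hf
  set f1 := (G.pw A (a + 1) r).toLinearMap.rTensor _ f with ef1
  have cA : ps G fr A r (a + 2) _ F - G.ev A _ (df (G.u A (a + 2))) (LinearMap.lTensor _ (fr _ ^ r) f1) ∈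
      ((N (c + 2 * D) s).map (d s)).baseChange _ := by
    have := T.triv H he hM hP (tor_u (a + 2) 0) (ev_bc (df (G.u A (a + 2))) hf1)
    rw [T.act_fro H r (tor_le hA (tor_u _ _))
      (ev_bc _ (Submodule.baseChange_mono _ inf_le_left hf1))] at this
    rw [← ev_u (ps G fr A r (a + 2) _ F), ev_ps _ (tor_u _), ← hfF,
      T.ev_hom hA (fun i => nsmul_mem (tor_u _ i) _) hfN, ev_lT]
    have e0 : G.ev A _ (df (G.u A (a + 2))) f1 = G.ev A _ (df fun i => p ^ r • G.u A (a + 2) i) f := by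
      rw [ef1, ev_pw _ (tor_df (tor_u _))]
      congr 2
      funext i
      simp only [df, smul_sub]
    rw [← e0]
    exact this
  have cB : ((G.cT A).cos.d (a + 1)).rTensor _ (LinearMap.lTensor _ (fr _ ^ r) f1) ∈
      ((N (c + 2 * D) s).map (d s)).baseChange _ := by
    have := de_bc cA
    rw [map_sub, ← de_ps, h2, map_zero, zero_sub, d_triv] at this
    have := ev_bc (Fin.cons 0 (G.u A (a + 2))) (neg_mem_iff.1 this)
    rwa [ev0_triv] at this
  have hw := bc_rT h hf1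
  set w := h.rTensor _ f1 with ew
  have hB : ∀ x ∈ (N (c + 2 * D) s).map (d s), (fr _ ^ t) x ∈ (N (q ^ t * (c + 2 * D)) s).map (d s) := by
    rintro _ ⟨y, hy, rfl⟩
    exact ⟨_, fr_pow H t hy, (fr_pow_d H t y).symm⟩
  have hw1 : LinearMap.lTensor _ (fr _ ^ r) w ∈ (N (q ^ r * b) _).baseChange _ :=
    bc_lT _ (fun x hx => fr_pow H r hx) (Submodule.baseChange_mono _ inf_le_left hw)
  have hw2 := bc_lT _ (fun x hx => fr_pow H t hx) hw1
  set w2 := LinearMap.lTensor _ (fr _ ^ t) (LinearMap.lTensor _ (fr _ ^ r) w) with ew2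
  have hW : T.hom a _ w2 ∈ T.St b' (a + 1) (s + 1) :=
    T.St_mono H (by rw [← mul_assoc, ← pow_add, add_comm t]; exact hb) _ _
      ⟨T.hom_bc hA hw2, T.hom_eqv hA hw2⟩
  have cC : T.hom a _ w2 - G.ev A _ (df (G.u A (a + 1))) w2 ∈
      ((N (q ^ t * (c + 2 * D)) s).map (d s)).baseChange _ := by
    have := bc_lT _ hB (T.triv H he hM hP (nsmul_mem (tor_u (a + 1) 0) (p ^ t))
      (ev_bc (df (G.u A (a + 1))) hw))
    rw [map_sub, ← ev_lT, ← T.act_fro H t (tor_le hA (tor_u _ _)) (ev_bc _ hw1), ← ev_lT] at this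
    exact this
  have cD : ps G fr A (r + t) (a + 2) _ F - (G.cO A _).d a (T.hom a _ w2) ∈
      ((N (q ^ t * (c + 2 * D)) s).map (d s)).baseChange _ := by
    have k1 := bc_rT (G.pw A (a + 2) t).toLinearMap (bc_lT _ hB cA)
    have k2 := de_bc cC
    have k3 := ev_bc (df (G.u A (a + 2))) (bc_lT _ hB (bc_rT h' cB))
    have e1 : h'.rTensor _ (((G.cT A).cos.d (a + 1)).rTensor _ (LinearMap.lTensor _ (fr _ ^ r) f1)) =
        (G.pw A (a + 1) t).toLinearMap.rTensor _ (LinearMap.lTensor _ (fr _ ^ r) f1) -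
          ((G.cT A).cos.d a).rTensor _ (LinearMap.lTensor _ (fr _ ^ r) w) := by
      rw [hh, LinearMap.rTensor_add, LinearMap.add_apply, LinearMap.rTensor_comp_apply,
        LinearMap.rTensor_comp_apply, ew, ← rT_lT h, add_sub_cancel_left]
    change ps G fr A t (a + 2) _ _ ∈ _ at k1
    rw [map_sub, ← ps_add, ps_triv] at k1
    rw [map_sub, d_triv] at k2
    rw [e1, map_sub, map_sub, ← rT_lT ((G.cT A).cos.d a)] at k3
    convert add_mem (sub_mem k1 k2) k3 using 1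
    abel
  have hE : T.Eqv (ps G fr A (r + t) (a + 2) _ F - (G.cO A _).d a (T.hom a _ w2)) :=
    (sub_mem (T.St_mono H ((le_add_of_nonneg_right H.D0).trans hb) _ _ (T.ps_St H hA _ hF))
      ((T.dc H hA 0 0 (fun _ => b') (by simp)).Se 0 a _ _ hW)).2
  obtain ⟨U, hU, eU⟩ := T.bd_of hA hE cD
  refine ⟨_, hW, U, T.St_mono H hc _ _ hU, ?_, fun ha0 => ?_, by rw [← eU]; abel⟩
  · rw [← T.hom_d hA hw2, ← Submodule.mem_bot (G.O A (a + 1))]
    have : (d _).lTensor _ w2 ∈ (⊥ : Submodule (ZMod p) (X (s + 2))).baseChange (G.O A a) := by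
      rw [ew2, ← LinearMap.lTensor_comp_apply, ← LinearMap.lTensor_comp_apply]
      refine bc_lT _ (fun x hx => ?_) hw
      change d _ ((fr _ ^ t) ((fr _ ^ r) x)) = 0
      rw [← fr_pow_d H, ← fr_pow_d H, show d _ x = 0 from hx.2, map_zero, map_zero]
    rw [Submodule.baseChange_bot, Submodule.mem_bot] at this
    rw [this, map_zero]; exact zero_mem _
  · rw [ew2, ew, h0 ha0]; simp

end TD

theorem h3_of (p : ℕ) [Fact p.Prime] (hN : ∀ G : GF p, G.NUL) : H3.{u} p := by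
  intro X _ _ G d fr ae N N0 M A q D T H e μ r t b c he hM hb y hy b' hd
  refine T.fin H (by omega) (r + t) t b (fun i hi => (hb i hi).1) (fun s hs => ?_) y hy b' hd
  intro i hi a s' has F hF h1 h2
  exact T.e2 (hN G) H he hM (lt_of_le_of_lt (by omega) (Nat.lt_pow_self (Fact.out : p.Prime).one_lt))
    (hb i hi).1 (hb i hi).2.1 ((hb i hi).2.2 s' (by omega)) hF h1 h2

end P261.PC
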