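import Vale.Agent.P261Z.PC.Hd

/-! Descent along the torsor: the double complex, and the step `H4`. -/

namespace P261.PC

open scoped TensorProduct
open P261.Cs GF

universe u

namespace TD

variable {p : ℕ} {X : ℕ → Type u} [∀ t, AddCommGroup (X t)] [∀ t, Module (ZMod p) (X t)] {G : GF p}
  {d : ∀ t, X t →ₗ[ZMod p] X (t + 1)} {fr : ∀ t, Module.End (ZMod p) (X t)}
  {ae : ℕ → ∀ t, Module.End (ZMod p) (X t)} {N N0 : ℝ → ∀ t, Submodule (ZMod p) (X t)}
  {M A : ℕ} {q D : ℝ} (T : TD G d fr ae N N0 M A D)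
  {S : Type} [CommRing S] [Algebra (ZMod p) S]

/-- Equivariant functions with values in `N b`. -/
def St (b : ℝ) (a t : ℕ) : Submodule (ZMod p) (G.O A a ⊗[ZMod p] X t) where
  carrier := {F | F ∈ (N b t).baseChange _ ∧ T.Eqv F}
  zero_mem' := ⟨zero_mem _, fun _ _ _ _ _ _ _ => by simp⟩
  add_mem' := fun h h' => ⟨add_mem h.1 h'.1, fun S _ _ g τ hg hτ => by
    rw [map_add, map_add, map_add, h.2 S g τ hg hτ, h'.2 S g τ hg hτ]⟩
  smul_mem' := fun c F h => ⟨Submodule.smul_of_tower_mem _ c h.1, fun S _ _ g τ hg hτ => by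
    rw [map_smul, map_smul, LinearMap.map_smul_of_tower, h.2 S g τ hg hτ]⟩

/-- The transition. -/
noncomputable def ps (G : GF p) (fr : ∀ t, Module.End (ZMod p) (X t)) (A R a t : ℕ) :
    Module.End (ZMod p) (G.O A a ⊗[ZMod p] X t) :=
  (G.pw A a R).toLinearMap.rTensor _ ∘ₗ LinearMap.lTensor _ (fr t ^ R)

theorem ev_ps (R : ℕ) {a t : ℕ} {g : Fin a → G.Pt S} (hg : ∀ i, g i ∈ G.tor A S)
    (F : G.O A a ⊗[ZMod p] X t) : G.ev A _ g (ps G fr A R a t F) =
      LinearMap.lTensor S (fr t ^ R) (G.ev A _ (fun i => p ^ R • g i) F) := by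
  rw [← ev_lT, ← ev_pw R hg]; rfl

theorem ps_St (H : HB d fr ae N q D) (hA : A ≤ M) (R : ℕ) {b : ℝ} {a t : ℕ}
    {F : G.O A a ⊗[ZMod p] X t} (h : F ∈ T.St b a t) : ps G fr A R a t F ∈ T.St (q ^ R * b) a t := by
  refine ⟨bc_rT _ (bc_lT _ (fun x hx => fr_pow H R hx) h.1), fun S _ _ g τ hg hτ => ?_⟩
  rw [ev_ps R (fun i => add_mem (hg i) hτ), ev_ps R hg, T.act_fro H R (tor_le hA hτ) (ev_bc _ h.1),
    ← h.2 S _ _ (fun i => nsmul_mem (hg i) _) (nsmul_mem hτ _)]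
  simp only [smul_add]

theorem St_mono (H : HB d fr ae N q D) {b b' : ℝ} (h : b ≤ b') (a t : ℕ) : T.St b a t ≤ T.St b' a t :=
  fun _ hF => ⟨Submodule.baseChange_mono _ (H.mono b b' h t) hF.1, hF.2⟩

theorem de_lT {V V' : Type u} [AddCommGroup V] [Module (ZMod p) V] [AddCommGroup V']
    [Module (ZMod p) V'] (f : V →ₗ[ZMod p] V') (a : ℕ) (F : G.O A (a + 1) ⊗[ZMod p] V) :
    (G.cO A V').d a (f.lTensor _ F) = f.lTensor _ ((G.cO A V).d a F) := by
  rw [← ev_u ((G.cO A V').d a _), ← ev_u (f.lTensor _ ((G.cO A V).d a F)), ev_lT, ev_d (tor_u _),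
    ev_d (tor_u _), map_sum]
  exact Finset.sum_congr rfl fun l _ => by rw [map_smul, ev_lT]

theorem de_bc {V : Type u} [AddCommGroup V] [Module (ZMod p) V] {P : Submodule (ZMod p) V} {a : ℕ}
    {F : G.O A (a + 1) ⊗[ZMod p] V} (h : F ∈ P.baseChange _) :
    (G.cO A V).d a F ∈ P.baseChange (G.O A (a + 2)) := by
  rw [← ev_u ((G.cO A V).d a _), ev_d (tor_u _)]
  exact sum_mem fun l _ => Submodule.smul_of_tower_mem _ _ (ev_bc _ h)

theorem de_ps (R a t : ℕ) (F : G.O A (a + 1) ⊗[ZMod p] X t) :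
    ps G fr A R (a + 2) t ((G.cO A (X t)).d a F) = (G.cO A (X t)).d a (ps G fr A R (a + 1) t F) := by
  rw [← ev_u (ps G fr A R (a + 2) t _), ← ev_u ((G.cO A (X t)).d a (ps G fr A R (a + 1) t F)),
    ev_ps R (tor_u _), ev_d (tor_u _), ev_d fun i => nsmul_mem (tor_u _ i) _, map_sum]
  refine Finset.sum_congr rfl fun l _ => ?_
  rw [map_smul, ev_ps R (g := G.u A (a + 2) ∘ l.succAbove) fun i => tor_u _ _]
  rfl

variable [Fact p.Prime]

/-- The double complex. -/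
noncomputable def dc (H : HB d fr ae N q D) (hA : A ≤ M) (R I : ℕ) (b : ℕ → ℝ)
    (hb : ∀ i < I, q ^ R * b i + D ≤ b (i + 1)) :
    DC (ZMod p) (fun a t => G.O A (a + 1) ⊗[ZMod p] X t) I where
  d _ t := (d t).lTensor _
  de a t := (G.cO A (X t)).d a
  ps a t := ps G fr A R (a + 1) t
  S i a t := T.St (b i) (a + 1) t
  dd a t F := by
    rw [← LinearMap.comp_apply, ← LinearMap.lTensor_comp,
      show d (t + 1) ∘ₗ d t = 0 from LinearMap.ext (H.dd t), LinearMap.lTensor_zero]; rfl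
  ee a t F := Cs.dd _ (G.cO A (X t)) a F
  ed a t F := de_lT (d t) a F
  pd a t F := by
    change LinearMap.rTensor _ _ (LinearMap.lTensor _ _ _) =
      LinearMap.lTensor _ _ (LinearMap.rTensor _ _ (LinearMap.lTensor _ _ _))
    rw [← rT_lT, ← LinearMap.lTensor_comp_apply, ← LinearMap.lTensor_comp_apply]
    congr 3
    exact LinearMap.ext (fr_pow_d H R)
  pe a t F := de_ps R a t F
  Sd i a t F h := ⟨bc_lT _ (H.N_d _ t) h.1, fun S _ _ g τ hg hτ => by
    rw [ev_lT, ev_lT, T.act_chain (tor_le hA hτ) (ev_bc _ h.1), h.2 S g τ hg hτ]⟩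
  Se i a t F h := ⟨de_bc h.1, fun S _ _ g τ hg hτ => by
    rw [ev_d hg, ev_d (fun i => add_mem (hg i) hτ), map_sum]
    refine Finset.sum_congr rfl fun l _ => ?_
    rw [LinearMap.map_smul_of_tower, ← h.2 S (g ∘ l.succAbove) τ (fun i => hg _) hτ]
    rfl⟩
  Sp i hi a t F h :=
    T.St_mono H ((le_add_of_nonneg_right H.D0).trans (hb i hi)) _ _ (T.ps_St H hA R h)
  base i a F _ h :=
    Module.Flat.lTensor_preserves_injective_linearMap (M := G.O A (a + 1)) (d 0)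
      ((injective_iff_map_eq_zero _).2 H.inj0) (h.trans (map_zero _).symm)
  row i hi a t F h h0 := by
    have h1 := T.ps_St H hA R h
    refine ⟨T.hh _ t (ps G fr A R _ t F), T.St_mono H (hb i hi) _ _
      ⟨T.Th_loss (ev_bc _ h1.1), T.hh_eqv hA h1.1 h1.2⟩, (T.d_hh h1.1 ?_).symm⟩
    rw [← de_ps, show (G.cO A (X t)).d (a + 1) F = 0 from h0, map_zero]

/-- Value at the origin. -/
noncomputable def e0 (G : GF p) (A : ℕ) (V : Type u) [AddCommGroup V] [Module (ZMod p) V] :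
    G.O A 1 ⊗[ZMod p] V →ₗ[ZMod p] V :=
  (TensorProduct.lid _ _).toLinearMap ∘ₗ G.ev A V fun _ => (0 : G.Pt (ZMod p))

section E0
variable {V V' : Type u} [AddCommGroup V] [Module (ZMod p) V] [AddCommGroup V'] [Module (ZMod p) V']

theorem e0_spec (F : G.O A 1 ⊗[ZMod p] V) :
    G.ev A V (fun _ => (0 : G.Pt S)) F = 1 ⊗ₜ e0 G A V F := by
  have := rT_ev (Algebra.ofId (ZMod p) S) (g := fun _ : Fin 1 => (0 : G.Pt (ZMod p)))
    (fun _ => zero_mem (G.tor A _)) F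
  simp only [map_zero] at this
  rw [← this, e0, LinearMap.comp_apply]
  generalize G.ev A V (fun _ => (0 : G.Pt (ZMod p))) F = z
  induction z with
  | zero => simp
  | tmul c x => simp [Algebra.ofId_apply, Algebra.algebraMap_eq_smul_one, TensorProduct.smul_tmul]
  | add a b h1 h2 => simp only [map_add, h1, h2, TensorProduct.tmul_add]

theorem e0_eq {F : G.O A 1 ⊗[ZMod p] V} {x : V}
    (h : G.ev A V (fun _ => (0 : G.Pt (ZMod p))) F = 1 ⊗ₜ x) : e0 G A V F = x := by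
  rw [e0, LinearMap.comp_apply, h]; simp

theorem e0_mem {P : Submodule (ZMod p) V} {F : G.O A 1 ⊗[ZMod p] V} (h : F ∈ P.baseChange _) :
    e0 G A V F ∈ P :=
  bc_ind (P := fun z => TensorProduct.lid _ _ z ∈ P) (ev_bc _ h) (by simp)
    (fun s x hx => by simpa using P.smul_mem s hx) fun a b h1 h2 => by
      rw [map_add]; exact add_mem h1 h2

theorem e0_lT (f : V →ₗ[ZMod p] V') (F : G.O A 1 ⊗[ZMod p] V) :
    e0 G A V' (f.lTensor _ F) = f (e0 G A V F) :=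
  e0_eq (by rw [ev_lT, e0_spec]; rfl)

end E0

theorem e0_ps (R n t : ℕ) (F : G.O A 1 ⊗[ZMod p] X t) :
    e0 G A _ ((ps G fr A R 1 t ^ n) F) = (fr t ^ (n * R)) (e0 G A _ F) := by
  induction n with
  | zero => simp
  | succ n ih =>
    rw [pow_succ', Module.End.mul_apply, add_mul, one_mul, add_comm, pow_add, Module.End.mul_apply,
      ← ih]
    refine e0_eq ?_
    rw [ev_ps R fun _ => zero_mem _]
    simp only [smul_zero]
    rw [e0_spec]; rfl

theorem inv_of {b : ℝ} {t : ℕ} {x : G.O A 1 ⊗[ZMod p] X t} (h : x ∈ T.St b 1 t)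
    (h0 : (G.cO A (X t)).d 0 x = 0) : e0 G A _ x ∈ N0 (b + D) t := by
  refine T.inv b t _ (e0_mem h.1) ?_
  have h1 := ev_d (g := ![0, G.u A 1 0]) (tor_cons (zero_mem _) (tor_cons (tor_u _ _) fun i => i.elim0)) x
  rw [h0, map_zero, Fin.sum_univ_two] at h1
  have a0 : (![0, G.u A 1 0] : Fin 2 → _) ∘ Fin.succAbove 0 = fun _ => 0 + G.u A 1 0 := by
    funext l; fin_cases l; simp
  have a1 : (![0, G.u A 1 0] : Fin 2 → _) ∘ Fin.succAbove 1 = fun _ => 0 := by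
    funext l; fin_cases l; simp
  rw [a0, a1, h.2 _ (fun _ => 0) _ (fun _ => zero_mem _) (tor_u _ _), e0_spec, act_tmul, one_smul] at h1
  simp only [Fin.val_zero, pow_zero, one_smul, Fin.val_one, pow_one] at h1
  exact add_neg_eq_zero.1 ((congrArg _ (neg_one_smul (ZMod p) _).symm).trans h1.symm)

/-- The conclusion of both descent steps. -/
theorem fin (H : HB d fr ae N q D) (hA : A ≤ M) (R t : ℕ) (b : ℕ → ℝ)
    (hb : ∀ i < 2 * t, q ^ R * b i + D ≤ b (i + 1))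
    (h2 : ∀ s, t = s + 1 → (T.dc H hA R (2 * t) b hb).E2 s)
    (y : X t) (hy : y ∈ N (b 0 - D) t) (b' : ℝ) (hd : d t y ∈ N0 b' (t + 1)) :
    (fr t ^ (2 * t * R)) y ∈ N0 (b (2 * t) + D) t ⊔ Bd d (N (b (2 * t))) t := by
  have hf : ((1 : G.O A 0) ⊗ₜ[ZMod p] y) ∈ (N (b 0 - D) t).baseChange _ :=
    Submodule.tmul_mem_baseChange_of_mem _ hy
  have hF : T.hom 0 t (1 ⊗ₜ y) ∈ T.St (b 0) 1 t :=
    ⟨by simpa using T.hom_bc hA hf, T.hom_eqv hA hf⟩
  have he : e0 G A _ (T.hom 0 t (1 ⊗ₜ y)) = y := e0_eq (by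
    rw [T.ev_hom hA (fun _ => zero_mem _) hf, T.act_zero (ev_bc _ hf)]; simp [GF.ev])
  have h1 : (G.cO A (X (t + 1))).d 0 ((d t).lTensor _ (T.hom 0 t (1 ⊗ₜ y))) = 0 := by
    have hf' := bc_lT (d t) (H.N_d _ t) hf
    rw [← T.hom_d hA hf, ← ev_u ((G.cO A _).d 0 _), ev_d (tor_u _), Fin.sum_univ_two,
      T.ev_hom hA (g := G.u A 2 ∘ Fin.succAbove 0) (fun i => tor_u _ _) hf',
      T.ev_hom hA (g := G.u A 2 ∘ Fin.succAbove 1) (fun i => tor_u _ _) hf']
    simp only [GF.ev, LinearMap.lTensor_tmul, LinearMap.rTensor_tmul, AlgHom.toLinearMap_apply, map_one,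
      act_tmul, one_smul, Function.comp]
    rw [T.fix _ (G.u_tor A 2 _) b' _ _ hd, T.fix _ (G.u_tor A 2 _) b' _ _ hd]
    simp only [Fin.val_zero, pow_zero, one_smul, Fin.val_one, pow_one]
    exact add_eq_zero_iff_eq_neg'.2 (neg_one_smul (ZMod p) ((1 : G.O A (0 + 2)) ⊗ₜ[ZMod p] d t y))
  cases t with
  | zero =>
    refine Submodule.mem_sup_left ?_
    have := T.inv_of hF ((T.dc H hA R (2 * 0) b hb).base 0 1 _
      ((T.dc H hA R (2 * 0) b hb).Se 0 0 0 _ hF) ((de_lT (d 0) 0 _).symm.trans h1))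
    rw [he] at this
    simpa using this
  | succ s =>
    obtain ⟨x, hx, z, hz, e1, e2⟩ := (T.dc H hA R (2 * (s + 1)) b hb).rel (h2 s rfl) s le_rfl 0
      (by omega) _ hF h1
    have e3 := congrArg (e0 G A (X (s + 1))) e2
    rw [map_add] at e3
    have e4 : 0 + (2 * s + 2) = 2 * (s + 1) := by omega
    rw [e4] at hx hz
    have e5 := (e0_ps (G := G) (fr := fr) (A := A) R (2 * s + 2) (s + 1) _).symm.trans e3
    rw [he] at e5
    rw [show 2 * (s + 1) * R = (2 * s + 2) * R by ring, e5]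
    exact Submodule.add_mem_sup (T.inv_of hx e1) ⟨_, e0_mem hz.1, (e0_lT (d s) z).symm⟩

/-- An equivariant function whose values are boundaries is the boundary of an equivariant function. -/
theorem bd_of (hA : A ≤ M) {b : ℝ} {a t : ℕ} {F : G.O A (a + 1) ⊗[ZMod p] X (t + 1)} (h : T.Eqv F)
    (h1 : F ∈ ((N b t).map (d t)).baseChange _) :
    ∃ U ∈ T.St (b + D) (a + 1) t, F = (d t).lTensor _ U := by
  obtain ⟨y, hy, e⟩ := bc_of_map _ (ev_bc (Fin.cons 0 (G.u A a)) h1)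
  exact ⟨T.hom a t y, ⟨T.hom_bc hA hy, T.hom_eqv hA hy⟩, by rw [← T.hom_d hA hy, e, h.hom_ev]⟩

end TD

theorem h4 (p : ℕ) [Fact p.Prime] : H4.{u} p := by
  intro X _ _ G d fr ae N N0 M A q D T H hA t b hb y hy b' hd
  have := T.fin H hA 0 t b (fun i hi => by simpa using (hb i hi).1) (fun s hs => ?_) y hy b' hd
  · simpa using this
  · refine DC.Col.e2 fun i hi a s' hs' F hF h0 => ?_
    have h1 : F ∈ ((N (b (i + 1) - D) s').map (d s')).baseChange _ :=
      Submodule.baseChange_mono _ (p := N (b i) (s' + 1) ⊓ LinearMap.ker (d _))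
        (fun x hx => (hb i hi).2 s' (by omega) x hx.1 hx.2) (bc_ker _ hF.1 h0)
    obtain ⟨U, hU, e⟩ := T.bd_of hA hF.2 h1
    rw [sub_add_cancel] at hU
    refine ⟨U, hU, Eq.trans ?_ e⟩
    change TD.ps G fr A 0 (a + 1) (s' + 1) F = F
    rw [← ev_u (TD.ps G fr A 0 (a + 1) (s' + 1) F), TD.ev_ps 0 (tor_u _)]
    simp [Module.End.one_eq_id, ev_u]

end P261.PC
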