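import Vale.Agent.P261Z.PC.Pts

/-! The double complex of equivariant functions attached to a torsor structure. -/

namespace P261.PC

open scoped TensorProduct
open P261.Cs GF Algebra.TensorProduct

universe u

theorem alt_succ {k V : Type*} [CommRing k] [AddCommGroup V] [Module k V] {n : ℕ}
    (c : Fin (n + 1) → V) : ∑ l : Fin (n + 1), ((-1 : k) ^ (l : ℕ)) • c l =
      c 0 - ∑ l : Fin n, ((-1 : k) ^ (l : ℕ)) • c l.succ := by
  rw [Fin.sum_univ_succ]
  simp only [Fin.val_zero, pow_zero, one_smul, Fin.val_succ, pow_succ, mul_neg_one,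
    neg_smul, Finset.sum_neg_distrib, sub_eq_add_neg]

namespace TD

variable {p : ℕ} {X : ℕ → Type u} [∀ t, AddCommGroup (X t)] [∀ t, Module (ZMod p) (X t)] {G : GF p}
  {d : ∀ t, X t →ₗ[ZMod p] X (t + 1)} {fr : ∀ t, Module.End (ZMod p) (X t)}
  {ae : ℕ → ∀ t, Module.End (ZMod p) (X t)} {N N0 : ℝ → ∀ t, Submodule (ZMod p) (X t)}
  {M A : ℕ} {q D : ℝ} (T : TD G d fr ae N N0 M A D)
  {S S' : Type} [CommRing S] [Algebra (ZMod p) S] [CommRing S'] [Algebra (ZMod p) S']

/-- The linear extension of the action of a point. -/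
noncomputable def act (τ : G.Pt S) (t : ℕ) : S ⊗[ZMod p] X t →ₗ[S] S ⊗[ZMod p] X t :=
  (T.al τ t).liftBaseChange S

theorem act_tmul (τ : G.Pt S) (t : ℕ) (s : S) (x : X t) : T.act τ t (s ⊗ₜ x) = s • T.al τ t x := by
  simp [act]

variable {b : ℝ} {t : ℕ}

theorem act_nat (f : S →ₐ[ZMod p] S') {τ : G.Pt S} (hτ : τ ∈ G.tor M S) {z : S ⊗[ZMod p] X t}
    (hz : z ∈ (N b t).baseChange S) :
    f.toLinearMap.rTensor _ (T.act τ t z) = T.act (G.map f τ) t (f.toLinearMap.rTensor _ z) :=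
  bc_ind (P := fun z => f.toLinearMap.rTensor _ (T.act τ t z) =
      T.act (G.map f τ) t (f.toLinearMap.rTensor _ z)) hz (by simp)
    (fun s x hx => by
      rw [act_tmul, rT_smul, T.nat f τ hτ b t x hx, LinearMap.rTensor_tmul, act_tmul]; rfl)
    fun a b h1 h2 => by simp only [map_add, h1, h2]

theorem act_zero {z : S ⊗[ZMod p] X t} (hz : z ∈ (N b t).baseChange S) : T.act 0 t z = z :=
  bc_ind (P := fun z => T.act 0 t z = z) hz (by simp)
    (fun s x hx => by rw [act_tmul, T.zero b t x hx, TensorProduct.smul_tmul', smul_eq_mul, mul_one])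
    fun a b h1 h2 => by simp only [map_add, h1, h2]

theorem act_add {τ τ' : G.Pt S} (hτ : τ ∈ G.tor M S) (hτ' : τ' ∈ G.tor M S) {z : S ⊗[ZMod p] X t}
    (hz : z ∈ (N b t).baseChange S) : T.act (τ + τ') t z = T.act τ t (T.act τ' t z) :=
  bc_ind (P := fun z => T.act (τ + τ') t z = T.act τ t (T.act τ' t z)) hz (by simp)
    (fun s x hx => by rw [act_tmul, act_tmul, map_smul, T.add τ τ' hτ hτ' b t x hx]; rfl)
    fun a b h1 h2 => by simp only [map_add, h1, h2]

theorem act_loss {τ : G.Pt S} (hτ : τ ∈ G.tor M S) {z : S ⊗[ZMod p] X t}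
    (hz : z ∈ (N b t).baseChange S) : T.act τ t z ∈ (N (b + D) t).baseChange S :=
  bc_ind (P := fun z => T.act τ t z ∈ (N (b + D) t).baseChange S) hz (by simp)
    (fun s x hx => by rw [act_tmul]; exact Submodule.smul_mem _ _ (T.loss τ hτ b t x hx))
    fun a b h1 h2 => by rw [map_add]; exact add_mem h1 h2

theorem act_chain {τ : G.Pt S} (hτ : τ ∈ G.tor M S) {z : S ⊗[ZMod p] X t}
    (hz : z ∈ (N b t).baseChange S) :
    T.act τ (t + 1) ((d t).lTensor S z) = (d t).lTensor S (T.act τ t z) :=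
  bc_ind (P := fun z => T.act τ (t + 1) ((d t).lTensor S z) = (d t).lTensor S (T.act τ t z)) hz
    (by simp)
    (fun s x hx => by
      rw [LinearMap.lTensor_tmul, act_tmul, act_tmul, T.chain τ hτ b t x hx, lT_smul])
    fun a b h1 h2 => by simp only [map_add, h1, h2]

theorem act_cen {τ : G.Pt S} (hτ : τ ∈ G.tor M S) (e : ℕ) (he : 1 ≤ e) {z : S ⊗[ZMod p] X t}
    (hz : z ∈ (N b t).baseChange S) :
    T.act τ t (LinearMap.lTensor S (ae e t) z) =
      LinearMap.lTensor S (ae e t) (T.act ((1 + p ^ e) • τ) t z) :=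
  bc_ind (P := fun z => T.act τ t (LinearMap.lTensor S (ae e t) z) =
      LinearMap.lTensor S (ae e t) (T.act ((1 + p ^ e) • τ) t z)) hz (by simp)
    (fun s x hx => by
      rw [LinearMap.lTensor_tmul, act_tmul, act_tmul, T.cen τ hτ e he b t x hx, lT_smul])
    fun a b h1 h2 => by simp only [map_add, h1, h2]

theorem fr_pow (H : HB d fr ae N q D) (n : ℕ) {x : X t} (hx : x ∈ N b t) :
    (fr t ^ n) x ∈ N (q ^ n * b) t := by
  induction n with
  | zero => simpa using hx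
  | succ n ih =>
    rw [pow_succ', pow_succ', mul_assoc]
    exact H.N_fr _ _ _ ih

theorem fr_pow_d (H : HB d fr ae N q D) (n : ℕ) (x : X t) :
    (fr (t + 1) ^ n) (d t x) = d t ((fr t ^ n) x) := by
  induction n with
  | zero => simp
  | succ n ih => rw [pow_succ', pow_succ', Module.End.mul_apply, Module.End.mul_apply, ih, H.fr_d]

theorem al_fro (H : HB d fr ae N q D) (n : ℕ) {x : X t} (hx : x ∈ N b t) :
    ∀ τ ∈ G.tor M S, T.al τ t ((fr t ^ n) x) =
      LinearMap.lTensor S (fr t ^ n) (T.al (p ^ n • τ) t x) := by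
  induction n with
  | zero => intro τ _; simp [Module.End.one_eq_id]
  | succ n ih =>
    intro τ hτ
    rw [pow_succ', Module.End.mul_apply, T.fro τ hτ _ t _ (fr_pow H n hx), ih _ (nsmul_mem hτ p),
      Module.End.mul_eq_comp, LinearMap.lTensor_comp, smul_smul, pow_succ]
    rfl

theorem act_fro (H : HB d fr ae N q D) (n : ℕ) {τ : G.Pt S} (hτ : τ ∈ G.tor M S)
    {z : S ⊗[ZMod p] X t} (hz : z ∈ (N b t).baseChange S) :
    T.act τ t (LinearMap.lTensor S (fr t ^ n) z) =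
      LinearMap.lTensor S (fr t ^ n) (T.act (p ^ n • τ) t z) :=
  bc_ind (P := fun z => T.act τ t (LinearMap.lTensor S (fr t ^ n) z) =
      LinearMap.lTensor S (fr t ^ n) (T.act (p ^ n • τ) t z)) hz (by simp)
    (fun s x hx => by
      rw [LinearMap.lTensor_tmul, act_tmul, act_tmul, T.al_fro H n hx τ hτ, lT_smul])
    fun a b h1 h2 => by simp only [map_add, h1, h2]

/-- The homogeneous function attached to an inhomogeneous one. -/
noncomputable def hom (a t : ℕ) : G.O A a ⊗[ZMod p] X t →ₗ[ZMod p] G.O A (a + 1) ⊗[ZMod p] X t :=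
  (T.act (G.u A (a + 1) 0) t).restrictScalars _ ∘ₗ G.ev A (X t) (df (G.u A (a + 1)))

theorem ev_hom (hA : A ≤ M) {a : ℕ} {g : Fin (a + 1) → G.Pt S} (hg : ∀ i, g i ∈ G.tor A S)
    {f : G.O A a ⊗[ZMod p] X t} (hf : f ∈ (N b t).baseChange _) :
    G.ev A _ g (T.hom a t f) = T.act (g 0) t (G.ev A _ (df g) f) := by
  change (G.lift A g).toLinearMap.rTensor _ (T.act _ t (G.ev A _ _ f)) = _
  rw [T.act_nat _ (tor_le hA (tor_u _ _)) (ev_bc _ hf), G.lift_u A g hg,
    rT_ev _ (tor_df (tor_u _))]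
  congr 3
  funext i
  simp only [df, map_sub, G.lift_u A g hg]

theorem hom_bc (hA : A ≤ M) {a : ℕ} {f : G.O A a ⊗[ZMod p] X t} (hf : f ∈ (N b t).baseChange _) :
    T.hom a t f ∈ (N (b + D) t).baseChange _ :=
  T.act_loss (tor_le hA (tor_u _ _)) (ev_bc _ hf)

theorem hom_d (hA : A ≤ M) {a : ℕ} {f : G.O A a ⊗[ZMod p] X t} (hf : f ∈ (N b t).baseChange _) :
    T.hom a (t + 1) ((d t).lTensor _ f) = (d t).lTensor _ (T.hom a t f) := by
  change T.act _ _ (G.ev A _ _ _) = (d t).lTensor _ (T.act _ _ (G.ev A _ _ _))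
  rw [ev_lT, T.act_chain (tor_le hA (tor_u _ _)) (ev_bc _ hf)]

/-- Equivariance. -/
def Eqv {a t : ℕ} (F : G.O A a ⊗[ZMod p] X t) : Prop :=
  ∀ (S : Type) [CommRing S] [Algebra (ZMod p) S] (g : Fin a → G.Pt S) (τ : G.Pt S),
    (∀ i, g i ∈ G.tor A S) → τ ∈ G.tor A S →
    G.ev A _ (fun i => g i + τ) F = T.act τ t (G.ev A _ g F)

theorem hom_eqv (hA : A ≤ M) {a : ℕ} {f : G.O A a ⊗[ZMod p] X t} (hf : f ∈ (N b t).baseChange _) :
    T.Eqv (T.hom a t f) := by
  intro S _ _ g τ hg hτ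
  rw [T.ev_hom hA (fun i => add_mem (hg i) hτ) hf, T.ev_hom hA hg hf, add_comm (g 0),
    T.act_add (tor_le hA hτ) (tor_le hA (hg 0)) (ev_bc _ hf)]
  congr 4
  funext i
  simp [df]

theorem Eqv.hom_ev {T : TD G d fr ae N N0 M A D} {a : ℕ} {F : G.O A (a + 1) ⊗[ZMod p] X t}
    (h : T.Eqv F) : T.hom a t (G.ev A _ (Fin.cons 0 (G.u A a)) F) = F := by
  change T.act _ _ (G.ev A _ _ (G.ev A _ _ F)) = F
  rw [ev_ev _ (tor_cons (zero_mem _) (tor_u _))]
  simp only [map_cons0 (tor_df (tor_u (G := G) (m := A) (a + 1))), cons_df]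
  rw [← h _ _ _ (fun i => sub_mem (tor_u _ _) (tor_u _ _)) (tor_u _ _)]
  simp only [sub_add_cancel]
  exact ev_u F

/-- Averaging by the total integral. -/
noncomputable def Th (S : Type) [CommRing S] [Algebra (ZMod p) S] (t : ℕ) :
    (S ⊗[ZMod p] G.O A 1) ⊗[ZMod p] X t →ₗ[ZMod p] S ⊗[ZMod p] X t :=
  (TensorProduct.lift (T.th t)).lTensor S ∘ₗ (TensorProduct.assoc _ _ _ _).toLinearMap

theorem Th_tmul (s : S) (f : G.O A 1) (x : X t) : T.Th S t ((s ⊗ₜ f) ⊗ₜ x) = s ⊗ₜ T.th t f x := by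
  simp [Th]

theorem Th_nat (f : S →ₐ[ZMod p] S') (w : (S ⊗[ZMod p] G.O A 1) ⊗[ZMod p] X t) :
    f.toLinearMap.rTensor _ (T.Th S t w) =
      T.Th S' t ((Algebra.TensorProduct.map f (AlgHom.id _ _)).toLinearMap.rTensor _ w) := by
  induction w with
  | zero => simp
  | add a b h1 h2 => simp only [map_add, h1, h2]
  | tmul ξ x =>
    induction ξ with
    | zero => simp
    | add a b h1 h2 => simp only [TensorProduct.add_tmul, map_add, h1, h2]
    | tmul s g => simp [Th_tmul]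

theorem Th_inl {z : S ⊗[ZMod p] X t} (hz : z ∈ (N b t).baseChange S) :
    T.Th S t ((includeLeft : S →ₐ[ZMod p] S ⊗[ZMod p] G.O A 1).toLinearMap.rTensor _ z) = z :=
  bc_ind (P := fun z => T.Th S t
      ((includeLeft : S →ₐ[ZMod p] S ⊗[ZMod p] G.O A 1).toLinearMap.rTensor _ z) = z) hz (by simp)
    (fun s x hx => by simp [Th_tmul, T.th_one b t x hx])
    fun a b h1 h2 => by simp only [map_add, h1, h2]

theorem Th_loss {w : (S ⊗[ZMod p] G.O A 1) ⊗[ZMod p] X t} (hw : w ∈ (N b t).baseChange _) :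
    T.Th S t w ∈ (N (b + D) t).baseChange S := by
  refine bc_ind (P := fun w => T.Th S t w ∈ (N (b + D) t).baseChange S) hw (by simp)
    (fun ξ x hx => ?_) fun a b h1 h2 => by rw [map_add]; exact add_mem h1 h2
  induction ξ with
  | zero => simp
  | add a b h1 h2 => rw [TensorProduct.add_tmul, map_add]; exact add_mem h1 h2
  | tmul s g =>
    rw [Th_tmul]; exact Submodule.tmul_mem_baseChange_of_mem _ (T.th_loss g b t x hx)

theorem Th_star (s : S) (ξ : S ⊗[ZMod p] G.O A 1) (z : S ⊗[ZMod p] X t) :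
    T.Th S t (((s ⊗ₜ 1) * ξ) •
      (includeLeft : S →ₐ[ZMod p] S ⊗[ZMod p] G.O A 1).toLinearMap.rTensor _ z) =
      s • TensorProduct.map₂ (LinearMap.mul (ZMod p) S) (T.th t) ξ z := by
  induction z with
  | zero => simp
  | add a b h1 h2 => simp only [map_add, smul_add, h1, h2]
  | tmul s' x =>
    induction ξ with
    | zero => simp
    | add a b h1 h2 => simp only [mul_add, add_smul, map_add, LinearMap.add_apply, smul_add, h1, h2]
    | tmul s'' g => simp [TensorProduct.smul_tmul', Th_tmul, mul_assoc]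

/-- Translation of the variable of integration. -/
noncomputable def shS (G : GF p) (A : ℕ) (τ : G.Pt S) :
    S ⊗[ZMod p] G.O A 1 →ₐ[ZMod p] S ⊗[ZMod p] G.O A 1 :=
  Algebra.TensorProduct.lift includeLeft (G.sh A τ) fun _ _ => .all _ _

theorem Th_eqv (hA : A ≤ M) {τ : G.Pt S} (hτ : τ ∈ G.tor A S)
    {w : (S ⊗[ZMod p] G.O A 1) ⊗[ZMod p] X t} (hw : w ∈ (N b t).baseChange _) :
    T.act τ t (T.Th S t w) =
      T.Th S t (T.act (G.map includeLeft τ) t ((shS G A τ).toLinearMap.rTensor _ w)) := by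
  refine bc_ind (P := fun w => T.act τ t (T.Th S t w) =
      T.Th S t (T.act (G.map includeLeft τ) t ((shS G A τ).toLinearMap.rTensor _ w))) hw (by simp)
    (fun ξ x hx => ?_) fun a b h1 h2 => by simp only [map_add, h1, h2]
  induction ξ with
  | zero => simp
  | add a b h1 h2 => simp only [TensorProduct.add_tmul, map_add, h1, h2]
  | tmul s g =>
    rw [Th_tmul, act_tmul, T.th_eqv τ hτ g b t x hx, LinearMap.rTensor_tmul, act_tmul,
      ← T.nat (S' := S ⊗[ZMod p] G.O A 1) includeLeft τ (tor_le hA hτ) b t x hx, ← Th_star]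
    simp [shS]

/-- The variable of integration followed by a tuple. -/
noncomputable def cs (G : GF p) (A : ℕ) {a : ℕ} (g : Fin a → G.Pt S) :
    Fin (a + 1) → G.Pt (S ⊗[ZMod p] G.O A 1) :=
  Fin.cons (G.map includeRight (G.u A 1 0)) fun i => G.map includeLeft (g i)

theorem tor_cs {a : ℕ} {g : Fin a → G.Pt S} (hg : ∀ i, g i ∈ G.tor A S) (i : Fin (a + 1)) :
    cs G A g i ∈ G.tor A _ := tor_cons (tor_map _ (tor_u _ _)) (fun i => tor_map _ (hg i)) i

/-- The contraction of the rows. -/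
noncomputable def hh (a t : ℕ) : G.O A (a + 1) ⊗[ZMod p] X t →ₗ[ZMod p] G.O A a ⊗[ZMod p] X t :=
  T.Th _ t ∘ₗ G.ev A _ (cs G A (G.u A a))

theorem ev_hh {a : ℕ} {g : Fin a → G.Pt S} (hg : ∀ i, g i ∈ G.tor A S)
    (F : G.O A (a + 1) ⊗[ZMod p] X t) :
    G.ev A _ g (T.hh a t F) = T.Th S t (G.ev A _ (cs G A g) F) := by
  change (G.lift A g).toLinearMap.rTensor _ (T.Th _ t (G.ev A _ _ F)) = _
  rw [Th_nat, rT_ev _ (tor_cs (tor_u _))]
  congr 3
  funext i
  refine Fin.cases ?_ (fun i => ?_) i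
  · simp only [cs, Fin.cons_zero, ← G.map_comp]
    congr 2
    ext x; simp
  · simp only [cs, Fin.cons_succ, ← G.map_comp]
    rw [← G.lift_u A g hg i, ← G.map_comp]
    congr 2

theorem hh_eqv (hA : A ≤ M) {a : ℕ} {F : G.O A (a + 1) ⊗[ZMod p] X t}
    (hF : F ∈ (N b t).baseChange _) (h : T.Eqv F) : T.Eqv (T.hh a t F) := by
  intro S _ _ g τ hg hτ
  rw [T.ev_hh (fun i => add_mem (hg i) hτ), T.ev_hh hg, T.Th_eqv hA hτ (ev_bc _ hF),
    rT_ev _ (tor_cs hg), ← h _ _ _ (fun i => tor_map _ (tor_cs hg i)) (tor_map _ hτ)]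
  congr 3
  funext i
  refine Fin.cases ?_ (fun i => ?_) i
  · simp only [cs, Fin.cons_zero, ← G.map_comp]
    have e : (shS G A τ).comp includeRight = G.sh A τ := by ext x; simp [shS]
    rw [e, GF.sh, G.lift_u A _ fun _ =>
      (sub_mem (tor_map _ (tor_u _ _)) (tor_map _ hτ) : _ ∈ G.tor A _), sub_add_cancel]
  · simp only [cs, Fin.cons_succ, ← G.map_comp, map_add]
    congr 3
    ext x; simp [shS]

theorem d_hh {a : ℕ} {F : G.O A (a + 2) ⊗[ZMod p] X t} (hF : F ∈ (N b t).baseChange _)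
    (h : (G.cO A (X t)).d (a + 1) F = 0) : (G.cO A (X t)).d a (T.hh (a + 1) t F) = F := by
  have h1 := ev_d (tor_cs (tor_u (G := G) (m := A) (a + 2))) F
  rw [h, map_zero] at h1
  replace h1 := h1.trans (alt_succ (k := ZMod p) _)
  simp only [cs, cons_sa] at h1
  have e3 : (Fin.cons (G.map includeRight (G.u A 1 0)) fun i => G.map includeLeft (G.u A (a + 2) i) :
      Fin (a + 3) → G.Pt (G.O A (a + 2) ⊗[ZMod p] G.O A 1)) ∘ Fin.succAbove 0 =
      fun i => G.map includeLeft (G.u A (a + 2) i) := by funext l; simp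
  rw [e3, ← rT_ev _ (tor_u _), ev_u, eq_comm, sub_eq_zero] at h1
  rw [← ev_u ((G.cO A (X t)).d a _), ev_d (tor_u _)]
  conv_rhs => rw [← T.Th_inl hF, h1, map_sum]
  refine Finset.sum_congr rfl fun l _ => ?_
  rw [map_smul, T.ev_hh (g := G.u A (a + 2) ∘ l.succAbove) fun i => tor_u _ _]
  rfl

end TD

end P261.PC
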