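import Vale.Agent.P261Z.PC.Fam

/-! # P261, block P: the perfect level at a fixed Igusa level -/

namespace P261.PC

universe u

variable {p : ℕ} {X : ℕ → Type u} [∀ t, AddCommGroup (X t)] [∀ t, Module (ZMod p) (X t)]

namespace Base

variable (B : Base p X)

theorem one_le_q : 1 ≤ B.q := one_le_two.trans B.two_le

theorem q_pos : 0 < B.q := one_pos.trans_le B.one_le_q

theorem pow_d (n t : ℕ) (x : X t) : (B.fr (t + 1) ^ n) (B.d t x) = B.d t ((B.fr t ^ n) x) := by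
  induction n with
  | zero => rfl
  | succ n ih => rw [pow_succ', pow_succ', Module.End.mul_apply, Module.End.mul_apply, ih, B.fr_d]

theorem pow_N (n : ℕ) {j b t} {x : X t} (h : x ∈ B.N j b t) :
    (B.fr t ^ n) x ∈ B.N j (B.q ^ n * b) t := by
  induction n with
  | zero => simpa using h
  | succ n ih =>
    rw [pow_succ', pow_succ', Module.End.mul_apply, mul_assoc]
    exact B.N_fr _ _ _ _ ih

theorem pow_bij (n t : ℕ) : Function.Bijective (B.fr t ^ n) := by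
  rw [Module.End.coe_pow]
  exact (B.fr_bij t).iterate n

theorem pow_pow (n m t : ℕ) (x : X t) : (B.fr t ^ n) ((B.fr t ^ m) x) = (B.fr t ^ (n + m)) x := by
  rw [pow_add, Module.End.mul_apply]

theorem mem_NL {L j b t} {x : X t} : x ∈ B.NL L j b t ↔ (B.fr t ^ L) x ∈ B.N j (B.q ^ L * b) t :=
  Iff.rfl

theorem NL_add (K : ℕ) {L j b t} {x : X t} (h : x ∈ B.NL L j b t) : x ∈ B.NL (K + L) j b t := by
  rw [mem_NL, ← pow_pow, pow_add, mul_assoc]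
  exact B.pow_N K h

theorem NL_mono {L j j' b b'} (hj : j ≤ j') (hb : b ≤ b') (t : ℕ) :
    B.NL L j b t ≤ B.NL L j' b' t := fun _ h =>
  B.mono hj (mul_le_mul_of_nonneg_left hb (pow_pos B.q_pos L).le) t h

theorem NA_mono {A j j' b b'} (hj : j ≤ j') (hb : b ≤ b') (t : ℕ) :
    B.NA A j b t ≤ B.NA A j' b' t :=
  Submodule.map_mono (B.mono hj (div_le_div_of_nonneg_right hb (pow_pos B.q_pos A).le) t)

theorem mem_NA (A : ℕ) {j b t} {x : X t} (h : x ∈ B.N j b t) :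
    (B.fr t ^ A) x ∈ B.NA A j (B.q ^ A * b) t :=
  ⟨x, by rwa [mul_div_cancel_left₀ _ (pow_pos B.q_pos A).ne'], rfl⟩

theorem NA_le (A j b t) : B.NA A j b t ≤ B.N j b t := by
  rintro _ ⟨x, h, rfl⟩
  have := B.pow_N A h
  rwa [mul_div_cancel₀ _ (pow_pos B.q_pos A).ne'] at this

theorem pow_NA (n : ℕ) {A j b t} {x : X t} (h : x ∈ B.NA A j b t) :
    (B.fr t ^ n) x ∈ B.NA A j (B.q ^ n * b) t := by
  obtain ⟨z, hz, rfl⟩ := h
  refine ⟨(B.fr t ^ n) z, ?_, by rw [pow_pow, pow_pow, add_comm]⟩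
  rw [mul_div_assoc]
  exact B.pow_N n hz

/-- The perfect level. -/
def NI (j : ℕ) (b : ℝ) (t : ℕ) : Submodule (ZMod p) (X t) where
  carrier := {x | ∃ L, x ∈ B.NL L j b t}
  zero_mem' := ⟨0, zero_mem _⟩
  add_mem' := fun ⟨L, h⟩ ⟨L', h'⟩ => ⟨L + L', add_mem (add_comm L L' ▸ B.NL_add L' h) (B.NL_add L h')⟩
  smul_mem' := fun c _ ⟨L, h⟩ => ⟨L, Submodule.smul_mem _ c h⟩

theorem NI_mono {j j' b b'} (hj : j ≤ j') (hb : b ≤ b') (t : ℕ) : B.NI j b t ≤ B.NI j' b' t :=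
  fun _ ⟨L, h⟩ => ⟨L, B.NL_mono hj hb t h⟩

theorem N_le (j b t) : B.N j b t ≤ B.NI j b t := fun x h => ⟨0, by simpa [mem_NL] using h⟩

end Base

namespace Core

variable {G : GF p} {Γ : Type} [Group Γ] (B : Core p X G Γ)

theorem pow_ρ (n t : ℕ) (g : Γ) (x : X t) :
    (B.fr t ^ n) (B.ρ t g x) = B.ρ t g ((B.fr t ^ n) x) := by
  induction n with
  | zero => rfl
  | succ n ih => rw [pow_succ', Module.End.mul_apply, Module.End.mul_apply, ih, B.ρ_fr]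

theorem D_pos (j : ℕ) : 0 < B.w ^ (j + 1) := pow_pos (one_pos.trans_le B.one_le) _

theorem famN {j j' : ℕ} (h : j ≤ j') {l : ℝ} (hl : B.w ^ (j' + 1) ≤ l) :
    Fam B.d B.ρ B.Gs j {j'} B.N l where
  dd := B.dd
  inj0 := B.inj0
  ρd := B.ρ_d
  anti := B.Gs_anti
  normal := B.Gs_normal
  fin := fun _ e => e ▸ B.Gs_fin j j' h
  mono := B.mono
  Pd := B.N_d
  Pρ := fun j b t g x => B.ρ_N j b t g x
  fix := B.Gs_fix
  l0 := (B.D_pos j').le.trans hl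
  tr := by
    rintro _ rfl t
    obtain ⟨μ, hμ⟩ := B.tr j _ h t
    refine ⟨μ, fun b x hx => ?_⟩
    obtain ⟨k1, k2⟩ := hμ 0 b x (by simpa [Base.mem_NL] using hx)
    exact ⟨B.mono le_rfl (add_le_add_right hl b) t (by simpa [Base.mem_NL] using k1), k2⟩

theorem famA (A : ℕ) {j j' : ℕ} (h : j ≤ j') :
    Fam B.d B.ρ B.Gs j {j'} (B.NA A) (B.q ^ A * B.w ^ (j' + 1)) where
  dd := B.dd
  inj0 := B.inj0
  ρd := B.ρ_d
  anti := B.Gs_anti
  normal := B.Gs_normal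
  fin := fun _ e => e ▸ B.Gs_fin j j' h
  mono := B.NA_mono
  Pd := by
    rintro j b t _ ⟨x, hx, rfl⟩
    exact ⟨_, B.N_d _ _ _ _ hx, B.pow_d A t x⟩
  Pρ := by
    rintro j b t g _ ⟨x, hx, rfl⟩
    exact ⟨_, B.ρ_N _ _ _ g _ hx, B.pow_ρ A t g x⟩
  fix := fun j b t g hg x hx => B.Gs_fix j b t g hg x (B.NA_le A j b t hx)
  l0 := (mul_pos (pow_pos B.q_pos A) (B.D_pos j')).le
  tr := by
    rintro j' rfl t
    obtain ⟨μ, hμ⟩ := (B.famN h le_rfl).tr _ rfl t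
    let E := LinearEquiv.ofBijective _ (B.pow_bij A t)
    refine ⟨B.fr t ^ A * μ * E.symm.toLinearMap, ?_⟩
    have e : ∀ x, (B.fr t ^ A) (μ x) =
        (B.fr t ^ A * μ * E.symm.toLinearMap) ((B.fr t ^ A) x) := fun x =>
      congrArg (fun y => (B.fr t ^ A) (μ y)) (E.symm_apply_apply x).symm
    rintro b _ ⟨x, hx, rfl⟩
    obtain ⟨k1, k2⟩ := hμ _ x hx
    refine ⟨⟨μ x, ?_, e x⟩, ?_⟩
    · rwa [add_div, mul_div_cancel_left₀ _ (pow_pos B.q_pos A).ne']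
    · rw [← map_trc (B.Gs_fin j j' h) _ (B.pow_ρ A t) e, k2]

theorem exists_pow (x : ℝ) : ∃ K : ℕ, x ≤ B.q ^ K :=
  (pow_unbounded_of_one_lt x (one_lt_two.trans_le B.two_le)).imp fun _ => le_of_lt

theorem famI (j : ℕ) : Fam B.d B.ρ B.Gs j {j' | j ≤ j'} B.NI 1 where
  dd := B.dd
  inj0 := B.inj0
  ρd := B.ρ_d
  anti := B.Gs_anti
  normal := B.Gs_normal
  fin := B.Gs_fin j
  mono := B.NI_mono
  Pd := fun j b t x ⟨L, h⟩ => ⟨L, by
    rw [Base.mem_NL, B.pow_d]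
    exact B.N_d _ _ _ _ h⟩
  Pρ := fun j b t g x ⟨L, h⟩ => ⟨L, by
    rw [Base.mem_NL, B.pow_ρ]
    exact B.ρ_N _ _ _ _ _ h⟩
  fix := fun j b t g hg x ⟨L, h⟩ => (B.pow_bij L t).1 (by
    rw [B.pow_ρ]
    exact B.Gs_fix j _ t g hg _ h)
  l0 := zero_le_one
  tr := fun j' h t => by
    obtain ⟨μ, hμ⟩ := B.tr j j' h t
    obtain ⟨K, hK⟩ := B.exists_pow (B.w ^ (j' + 1))
    let E := LinearEquiv.ofBijective _ (B.pow_bij K t)
    refine ⟨E.symm.toLinearMap * μ * B.fr t ^ K, fun b x ⟨L, hx⟩ => ?_⟩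
    have e : ∀ x, (B.fr t ^ K) ((E.symm.toLinearMap * μ * B.fr t ^ K) x) = μ ((B.fr t ^ K) x) :=
      fun x => E.apply_symm_apply _
    obtain ⟨k1, k2⟩ := hμ L (B.q ^ K * b) ((B.fr t ^ K) x) (by
      rw [Base.mem_NL, B.pow_pow, ← mul_assoc, ← pow_add, add_comm]
      exact B.NL_add K hx)
    refine ⟨⟨L + K, ?_⟩, (B.pow_bij K t).1 ?_⟩
    · rw [Base.mem_NL, ← B.pow_pow, e, pow_add, mul_assoc]
      exact B.NL_mono le_rfl (by linarith) t k1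
    · rw [map_trc (B.Gs_fin j j' h) _ (B.pow_ρ K t) e, k2]

theorem invI {j j' b t} (h : j ≤ j') {x : X t} (hx : x ∈ B.NI j' b t)
    (hg : ∀ g ∈ B.Gs j, B.ρ t g x = x) : x ∈ B.NI j (b + 1) t := by
  obtain ⟨L, hx⟩ := hx
  obtain ⟨K, hK⟩ := B.exists_pow (B.w ^ (j' + 1))
  refine ⟨K + L, B.mono le_rfl ?_ t (B.Gs_inv j j' h _ t _ (B.NL_add K hx) fun g k => by
    rw [← B.pow_ρ, hg g k])⟩
  linarith [pow_le_pow_right₀ B.one_le_q (Nat.le_add_right K L)]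

/-- Boundedness at the perfect level. -/
theorem bndI (t : ℕ) (b : ℝ) : ∃ b', ∀ j, ∀ x ∈ B.NI j b (t + 1), B.d _ x = 0 →
    ∃ y ∈ B.NI j b' t, B.d t y = x := by
  choose φ h1 h2 using fun b => exists_unif (P := fun s b' => ∀ L j, ∀ x ∈ B.NL L j b (s + 1),
    B.d _ x = 0 → ∃ L' j', ∃ y ∈ B.NL L' j' b' s, B.d s y = x)
    (fun s _ _ h k L j x hx hd => let ⟨L', j', y, k1, k2⟩ := k L j x hx hd
      ⟨L', j', y, B.NL_mono le_rfl h s k1, k2⟩) (b + 1) (t + 1) fun s _ => B.bnd s b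
  refine ⟨φ^[2 * t + 1] b + 1, fun j x hx hd => ?_⟩
  obtain ⟨j', k1, y, k2, k3, k4⟩ := (B.famI j).desc 1 (fun _ _ => rfl) (fun _ _ _ => rfl) t
    (fun i => φ^[i] b)
    (fun i _ j' s x hx => B.NI_mono le_rfl (by
      rw [Function.iterate_succ_apply']
      exact h1 _) s hx)
    (fun i _ j' _ s hs x ⟨L, hx⟩ hd => by
      obtain ⟨L', j'', y, k1, k2⟩ := h2 _ s (by omega) L j' x hx hd
      rw [Function.iterate_succ_apply']
      exact ⟨max j j'', le_max_left j j'', y, ⟨L', B.NL_mono (le_max_right _ _) le_rfl s k1⟩,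
        k2.symm⟩)
    (le_refl j) hx hd fun g hg => (B.famI j).fix j _ _ g hg x hx
  exact ⟨y, B.invI k1 k2 k3, by simpa using k4.symm⟩

theorem hcL (t : ℕ) : ∃ a : ℝ × ℕ, 0 ≤ a.1 ∧ ∀ s < t, ∀ e, a.2 ≤ e → ∀ b, 0 ≤ b → ∀ j,
    ∀ x ∈ B.NI j b (s + 1), B.d _ x = 0 →
    ∃ j', ∃ y ∈ B.NI j' (b + a.1 * (b / B.q ^ e + 1)) s, B.d s y = B.ρ _ (B.a e) x - x := by
  refine (exists_unif (P := fun s (a : ℝ × ℕ) => ∀ e, a.2 ≤ e → ∀ b, 0 ≤ b → ∀ j,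
    ∀ x ∈ B.NI j b (s + 1), B.d _ x = 0 → ∃ j', ∃ y ∈ B.NI j' (b + a.1 * (b / B.q ^ e + 1)) s,
      B.d s y = B.ρ _ (B.a e) x - x) (fun s a a' h k e he b hb j x hx hd => ?_) (0, 0) t
    fun s _ => ?_).imp fun a h => ⟨h.1.1, h.2⟩
  · obtain ⟨j', y, k1, k2⟩ := k e (h.2.trans he) b hb j x hx hd
    have := pow_pos B.q_pos e
    exact ⟨j', y, B.NI_mono le_rfl (by gcongr; exact h.1) s k1, k2⟩
  · obtain ⟨r, C, e0, h⟩ := B.hc s
    refine ⟨(max (max r C) 0, e0), fun e he b hb j x ⟨L, hx⟩ hd => ?_⟩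
    have k0 := pow_pos B.q_pos L
    obtain ⟨L', j', y, k1, k2⟩ := h e he _ (mul_nonneg k0.le hb) j _ hx (by
      rw [← B.pow_d, hd, map_zero])
    obtain ⟨y, rfl⟩ := (B.pow_bij L s).2 y
    refine ⟨j', y, ⟨L' + L, ?_⟩, (B.pow_bij L _).1 (by rw [B.pow_d, k2, map_sub, B.pow_ρ])⟩
    rw [Base.mem_NL, ← B.pow_pow, pow_add, mul_assoc]
    refine B.NL_mono le_rfl ?_ s k1
    have k3 : 0 ≤ b / B.q ^ e := div_nonneg hb (pow_pos B.q_pos e).le
    have k4 := one_le_pow₀ (n := L) B.one_le_q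
    have k5 : r ≤ max (max r C) 0 := le_max_of_le_left (le_max_left _ _)
    have k6 : C ≤ max (max r C) 0 := le_max_of_le_left (le_max_right _ _)
    have k7 : 0 ≤ max (max r C) 0 := le_max_right _ _
    rw [mul_div_assoc, mul_div_assoc]
    dsimp only
    nlinarith [mul_le_mul_of_nonneg_right k5 (mul_nonneg k0.le k3)]

/-- A power of the scalar acts trivially at the perfect level. -/
theorem hcI (hp : p.Prime) (t : ℕ) : ∃ (m e0 : ℕ) (K : ℝ), 0 ≤ K ∧ ∀ e, e0 ≤ e → ∀ S, 1 ≤ S →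
    ∀ b, 0 ≤ b → b ≤ B.q ^ e * S → ∀ j, ∀ s < t, ∀ x ∈ B.N j b (s + 1), B.d _ x = 0 →
    ∃ y ∈ B.NI j (b + K * S) s, B.d s y = (B.ρ _ (B.a e) ^ p ^ m) x - x := by
  obtain ⟨⟨r, e0⟩, hr, h⟩ := B.hcL t
  dsimp only at hr h
  have hκ : 1 ≤ 2 * r + 2 := by linarith
  refine ⟨2 * t, e0, (2 * r + 2) ^ (2 * t), by positivity,
    fun e he S hS b hb hb' j s hs x hx hd => ?_⟩
  have F := B.famI j
  have h1 : ∀ i, 1 ≤ (2 * r + 2) ^ i * S := fun i => one_le_mul_of_one_le_of_one_le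
    (one_le_pow₀ hκ) hS
  have h2 : ∀ j b s, ∀ x ∈ B.NI j b s, (B.ρ s (B.a e) - 1) x ∈ B.NI j b s := fun j b s x hx =>
    sub_mem (F.Pρ j b s _ x hx) hx
  have h3 : ∀ t x, (B.ρ (t + 1) (B.a e) - 1) (B.d t x) = B.d t ((B.ρ t (B.a e) - 1) x) :=
    fun t x => by simp [B.ρ_d]
  obtain ⟨j', k1, y, k2, k3, k4⟩ := F.desc (fun t => B.ρ t (B.a e) - 1) h3
    (fun t g x => by
      rw [LinearMap.sub_apply, LinearMap.sub_apply, map_sub, ← Module.End.mul_apply, ← map_mul,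
        B.a_comm, map_mul]
      rfl) s (fun i => b + ((2 * r + 2) ^ i - 1) * S)
    (fun i _ j' s x hx => h2 _ _ _ _ (B.NI_mono le_rfl (by
      rw [pow_succ]
      nlinarith [h1 i]) s hx))
    (fun i _ j' _ s' hs' x hx hd => by
      have k0 := pow_pos B.q_pos e
      have k5 : 0 ≤ ((2 * r + 2) ^ i - 1) * S :=
        mul_nonneg (sub_nonneg.2 (one_le_pow₀ hκ)) (by linarith)
      obtain ⟨j'', y, k1, k2⟩ := h s' (by omega) e he _ (by linarith) j' x hx hd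
      refine ⟨max j j'', le_max_left j j'', y, B.NI_mono (le_max_right _ _) ?_ s' k1, k2.symm⟩
      have k6 : (b + ((2 * r + 2) ^ i - 1) * S) / B.q ^ e ≤ (2 * r + 2) ^ i * S := by
        rw [div_le_iff₀ k0]
        nlinarith [mul_le_mul_of_nonneg_left (one_le_pow₀ (n := e) B.one_le_q) k5]
      rw [pow_succ]
      nlinarith [h1 i, mul_le_mul_of_nonneg_left k6 hr, mul_le_mul_of_nonneg_left (h1 i) hr])
    (le_refl j) (B.N_le _ _ _ (by simpa using hx)) hd fun g hg => B.Gs_fix j _ _ g hg x hx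
  obtain ⟨n, hn⟩ : ∃ n, p ^ (2 * t) = n + (2 * s + 1) :=
    ⟨_, (Nat.sub_add_cancel ((Nat.lt_pow_self hp.one_lt).le.trans' (by omega))).symm⟩
  have h4 : ∀ n : ℕ, ((B.ρ s (B.a e) - 1) ^ n) y ∈ B.NI j (b + (2 * r + 2) ^ (2 * t) * S) s ∧
      B.d s (((B.ρ s (B.a e) - 1) ^ n) y) = ((B.ρ _ (B.a e) - 1) ^ n) (B.d s y) := fun n => by
    induction n with
    | zero =>
      refine ⟨B.NI_mono le_rfl ?_ s (B.invI k1 k2 k3), rfl⟩
      nlinarith [pow_le_pow_right₀ hκ (show 2 * s + 1 ≤ 2 * t by omega)]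
    | succ n ih =>
      rw [pow_succ', pow_succ', Module.End.mul_apply, Module.End.mul_apply, ← ih.2, h3]
      exact ⟨h2 _ _ _ _ ih.1, rfl⟩
  refine ⟨_, (h4 n).1, ?_⟩
  obtain ⟨c, hc⟩ := (Commute.one_right (B.ρ (s + 1) (B.a e) - 1)).exists_add_pow_prime_pow_eq hp
    (2 * t)
  have h5 : (p : Module.End (ZMod p) (X (s + 1))) = 0 := by
    rw [← map_natCast (algebraMap (ZMod p) _), ZMod.natCast_self, map_zero]
  rw [sub_add_cancel, h5] at hc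
  rw [(h4 n).2, ← k4, ← Module.End.mul_apply, ← pow_add, ← hn, hc]
  simp

end Core

end P261.PC
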