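import Vale.Agent.P261Z.PC.Sk
import Vale.Agent.P261Z.PC.Gal

/-! Tensor products with submodules; calculus of points; the two complexes of functions on points. -/

namespace P261.PC

open scoped TensorProduct
open P261.Cs

universe u

section Tn
variable {k : Type} [CommRing k] {S S' : Type} [CommRing S] [Algebra k S] [CommRing S'] [Algebra k S']
  {V : Type u} {V' : Type u} [AddCommGroup V] [Module k V] [AddCommGroup V'] [Module k V']

theorem bc_ind {N : Submodule k V} {P : S ⊗[k] V → Prop} {z : S ⊗[k] V} (hz : z ∈ N.baseChange S)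
    (h0 : P 0) (ht : ∀ s, ∀ x ∈ N, P (s ⊗ₜ x)) (ha : ∀ a b, P a → P b → P (a + b)) : P z := by
  obtain ⟨w, rfl⟩ := hz
  induction w with
  | zero => simpa using h0
  | tmul s x => exact ht s x x.2
  | add a b h1 h2 => rw [map_add]; exact ha _ _ h1 h2

theorem bc_map {N : Submodule k V} {N' : Submodule k V'} (f : S →ₗ[k] S') (g : V →ₗ[k] V')
    (hg : ∀ x ∈ N, g x ∈ N') {z : S ⊗[k] V} (hz : z ∈ N.baseChange S) :
    TensorProduct.map f g z ∈ N'.baseChange S' :=
  bc_ind (P := fun z => TensorProduct.map f g z ∈ N'.baseChange S') hz (by simp)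
    (fun s x hx => Submodule.tmul_mem_baseChange_of_mem _ (hg x hx))
    fun a b h1 h2 => by rw [map_add]; exact add_mem h1 h2

theorem bc_rT {N : Submodule k V} (f : S →ₗ[k] S') {z : S ⊗[k] V} (hz : z ∈ N.baseChange S) :
    f.rTensor V z ∈ N.baseChange S' := bc_map f LinearMap.id (fun _ h => h) hz

theorem bc_lT {N : Submodule k V} {N' : Submodule k V'} (g : V →ₗ[k] V')
    (hg : ∀ x ∈ N, g x ∈ N') {z : S ⊗[k] V} (hz : z ∈ N.baseChange S) :
    g.lTensor S z ∈ N'.baseChange S := bc_map LinearMap.id g hg hz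

theorem bc_of_map {N : Submodule k V} (g : V →ₗ[k] V') {z : S ⊗[k] V'}
    (hz : z ∈ (N.map g).baseChange S) : ∃ y ∈ N.baseChange S, g.lTensor S y = z := by
  refine bc_ind (P := fun z => ∃ y ∈ N.baseChange S, g.lTensor S y = z) hz ⟨0, zero_mem _, by simp⟩
    ?_ ?_
  · rintro s _ ⟨x, hx, rfl⟩
    exact ⟨s ⊗ₜ x, Submodule.tmul_mem_baseChange_of_mem _ hx, rfl⟩
  · rintro _ _ ⟨a, ha, rfl⟩ ⟨b, hb, rfl⟩
    exact ⟨a + b, add_mem ha hb, map_add _ _ _⟩

theorem bc_ker [Module.Flat k S] {N : Submodule k V} (g : V →ₗ[k] V') {z : S ⊗[k] V}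
    (hz : z ∈ N.baseChange S) (h : g.lTensor S z = 0) : z ∈ (N ⊓ LinearMap.ker g).baseChange S := by
  obtain ⟨w, rfl⟩ := hz
  have ex := Module.Flat.lTensor_exact S (LinearMap.exact_subtype_ker_map (g ∘ₗ N.subtype))
  obtain ⟨w', rfl⟩ := (ex w).1 (by rw [LinearMap.lTensor_comp]; exact h)
  clear h ex
  induction w' with
  | zero => simp
  | tmul s x => exact Submodule.tmul_mem_baseChange_of_mem _ ⟨x.1.2, x.2⟩
  | add a b h1 h2 => rw [map_add, map_add]; exact add_mem h1 h2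

theorem rT_lT (f : S →ₗ[k] S') (g : V →ₗ[k] V') (z : S ⊗[k] V) :
    f.rTensor V' (g.lTensor S z) = g.lTensor S' (f.rTensor V z) := by
  rw [← LinearMap.comp_apply, ← LinearMap.comp_apply, LinearMap.rTensor_comp_lTensor,
    LinearMap.lTensor_comp_rTensor]

theorem rT_smul (f : S →ₐ[k] S') (s : S) (z : S ⊗[k] V) :
    f.toLinearMap.rTensor V (s • z) = f s • f.toLinearMap.rTensor V z := by
  induction z with
  | zero => simp
  | tmul a x => simp [TensorProduct.smul_tmul']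
  | add a b h1 h2 => simp only [smul_add, map_add, h1, h2]

theorem lT_smul (g : V →ₗ[k] V') (s : S) (z : S ⊗[k] V) :
    g.lTensor S (s • z) = s • g.lTensor S z := (g.baseChange S).map_smul s z

end Tn

namespace GF

variable {p : ℕ} (G : GF p) (m : ℕ) {S S' : Type} [CommRing S] [Algebra (ZMod p) S] [CommRing S']
  [Algebra (ZMod p) S'] {V : Type u} [AddCommGroup V] [Module (ZMod p) V]

/-- The points killed by `p^m`. -/
def tor (S : Type) [CommRing S] [Algebra (ZMod p) S] : AddSubgroup (G.Pt S) where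
  carrier := {τ | p ^ m • τ = 0}
  zero_mem' := smul_zero _
  add_mem' := fun {a b} (ha : _ = _) (hb : _ = _) => by
    change p ^ m • (a + b) = 0
    rw [smul_add, ha, hb, add_zero]
  neg_mem' := fun {a} (ha : _ = _) => by
    change p ^ m • (-a) = 0
    rw [smul_neg, ha, neg_zero]

variable {G m}

theorem tor_map (f : S →ₐ[ZMod p] S') {τ : G.Pt S} (h : τ ∈ G.tor m S) : G.map f τ ∈ G.tor m S' := by
  change p ^ m • G.map f τ = 0
  rw [← map_nsmul, show p ^ m • τ = 0 from h, map_zero]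

theorem tor_le {m m' : ℕ} (h : m ≤ m') {τ : G.Pt S} (hτ : τ ∈ G.tor m S) : τ ∈ G.tor m' S := by
  obtain ⟨c, rfl⟩ := Nat.exists_eq_add_of_le' h
  change p ^ (c + m) • τ = 0
  rw [pow_add, mul_smul, show p ^ m • τ = 0 from hτ, smul_zero]

theorem tor_u (a : ℕ) (i : Fin a) : G.u m a i ∈ G.tor m _ := G.u_tor m a i

theorem tor_cons {a : ℕ} {τ : G.Pt S} {g : Fin a → G.Pt S} (h : τ ∈ G.tor m S)
    (hg : ∀ i, g i ∈ G.tor m S) (i : Fin (a + 1)) : (Fin.cons τ g : Fin (a + 1) → G.Pt S) i ∈ G.tor m S :=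
  Fin.cases h hg i

theorem comp_lift {a : ℕ} (f : S →ₐ[ZMod p] S') {g : Fin a → G.Pt S} (hg : ∀ i, g i ∈ G.tor m S) :
    f.comp (G.lift m g) = G.lift m fun i => G.map f (g i) :=
  G.ext m _ _ fun i => by
    rw [G.map_comp, G.lift_u m g hg, G.lift_u m _ fun i => tor_map f (hg i)]

theorem lift_id (a : ℕ) : G.lift m (G.u m a) = AlgHom.id _ _ :=
  G.ext m _ _ fun i => by rw [G.lift_u m _ (G.u_tor m a), G.map_id]

variable (G m V)

/-- Evaluation of a function with values in `V` at a tuple of points. -/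
noncomputable def ev {a : ℕ} (g : Fin a → G.Pt S) : G.O m a ⊗[ZMod p] V →ₗ[ZMod p] S ⊗[ZMod p] V :=
  (G.lift m g).toLinearMap.rTensor V

variable {G m V}

theorem ev_u {a : ℕ} (F : G.O m a ⊗[ZMod p] V) : G.ev m V (G.u m a) F = F := by
  rw [ev, lift_id]; exact congrFun (congrArg DFunLike.coe (LinearMap.rTensor_id V _)) F

theorem rT_ev {a : ℕ} (f : S →ₐ[ZMod p] S') {g : Fin a → G.Pt S} (hg : ∀ i, g i ∈ G.tor m S)
    (F : G.O m a ⊗[ZMod p] V) :
    f.toLinearMap.rTensor V (G.ev m V g F) = G.ev m V (fun i => G.map f (g i)) F := by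
  rw [ev, ev, ← comp_lift f hg, ← LinearMap.comp_apply, ← LinearMap.rTensor_comp]; rfl

theorem ev_ev {a a' : ℕ} (g : Fin a' → G.Pt S) {h : Fin a → G.Pt (G.O m a')}
    (hh : ∀ i, h i ∈ G.tor m _) (F : G.O m a ⊗[ZMod p] V) :
    G.ev m V g (G.ev m V h F) = G.ev m V (fun i => G.map (G.lift m g) (h i)) F := rT_ev _ hh F

theorem ev_lT {a : ℕ} {V' : Type u} [AddCommGroup V'] [Module (ZMod p) V'] (g : Fin a → G.Pt S)
    (f : V →ₗ[ZMod p] V') (F : G.O m a ⊗[ZMod p] V) :
    G.ev m V' g (f.lTensor _ F) = f.lTensor S (G.ev m V g F) := rT_lT _ _ _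

theorem ev_bc {a : ℕ} (g : Fin a → G.Pt S) {N : Submodule (ZMod p) V} {F : G.O m a ⊗[ZMod p] V}
    (hF : F ∈ N.baseChange _) : G.ev m V g F ∈ N.baseChange S := bc_rT _ hF

variable (G m V)

/-- Homogeneous functions. -/
@[reducible] noncomputable def cO : Cos.{u} (ZMod p) where
  X n := G.O m (n + 1) ⊗[ZMod p] V
  map f := G.ev m V fun i => G.u m _ (f i)
  map_id _ F := ev_u F
  map_comp f g F := by
    rw [ev_ev _ fun i => tor_u _ _]
    simp only [G.lift_u m _ fun i => G.u_tor m _ (g i)]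
    rfl

variable {G m V}

theorem ev_d {a : ℕ} {g : Fin (a + 2) → G.Pt S} (hg : ∀ i, g i ∈ G.tor m S)
    (F : G.O m (a + 1) ⊗[ZMod p] V) :
    G.ev m V g ((G.cO m V).d a F) =
      ∑ l : Fin (a + 2), ((-1 : ZMod p) ^ (l : ℕ)) • G.ev m V (g ∘ l.succAbove) F := by
  rw [HtpyAux.d_apply, map_sum]
  refine Finset.sum_congr rfl fun l _ => ?_
  rw [map_smul]
  change _ • G.ev m V g (G.ev m V _ F) = _
  rw [ev_ev _ fun i => tor_u _ _]
  simp only [G.lift_u m g hg]
  rfl

/-- Differences with the first point. -/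
def df {α : Type*} [Sub α] {a : ℕ} (g : Fin (a + 1) → α) : Fin a → α := fun i => g i.succ - g 0

theorem tor_df {a : ℕ} {g : Fin (a + 1) → G.Pt S} (hg : ∀ i, g i ∈ G.tor m S) (i : Fin a) :
    df g i ∈ G.tor m S := sub_mem (hg _) (hg _)

theorem cons_df {α : Type*} [AddGroup α] {a : ℕ} (g : Fin (a + 1) → α) (i : Fin (a + 1)) :
    (Fin.cons 0 (df g) : Fin (a + 1) → α) i = g i - g 0 := by
  refine Fin.cases ?_ (fun i => ?_) i
  · simp
  · simp [df]

theorem map_cons0 {a : ℕ} {g : Fin a → G.Pt S} (hg : ∀ i, g i ∈ G.tor m S) (i : Fin (a + 1)) :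
    G.map (G.lift m g) ((Fin.cons 0 (G.u m a) : Fin (a + 1) → _) i) =
      (Fin.cons 0 g : Fin (a + 1) → _) i := by
  refine Fin.cases ?_ (fun i => ?_) i
  · simp
  · simp [G.lift_u m g hg]

variable (G m)

/-- Inhomogeneous functions with trivial coefficients. -/
@[reducible] noncomputable def cT : CosAlg.{0} (ZMod p) where
  X n := G.O m n
  map f := G.lift m (df ((Fin.cons 0 (G.u m _) : Fin (_ + 1) → _) ∘ f))
  map_id n x := by
    have : df ((Fin.cons 0 (G.u m n) : Fin (n + 1) → _) ∘ id) = G.u m n := by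
      funext i; simp [df]
    rw [this, lift_id]; rfl
  map_comp {l a n} f g x := by
    have t : ∀ {a n : ℕ} (f : Fin (a + 1) → Fin (n + 1)) i,
        df ((Fin.cons 0 (G.u m n) : Fin (n + 1) → _) ∘ f) i ∈ G.tor m _ :=
      fun f => tor_df fun i => tor_cons (zero_mem _) (tor_u _) _
    rw [← AlgHom.comp_apply, comp_lift _ (t f)]
    congr 2
    funext i
    simp only [df, map_sub, Function.comp]
    rw [map_cons0 (t g), map_cons0 (t g), cons_df, cons_df]
    simp

/-- Multiplication of the points by `p^r`. -/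
noncomputable def pw (a r : ℕ) : G.O m a →ₐ[ZMod p] G.O m a := G.lift m fun i => p ^ r • G.u m a i

/-- Multiplication by `p^r` is null on the cohomology with trivial coefficients in degrees `0 < a < p^r`. -/
def NUL : Prop := ∀ m a r, a + 1 < p ^ r →
  ∃ (h : G.O m (a + 1) →ₗ[ZMod p] G.O m a) (h' : G.O m (a + 2) →ₗ[ZMod p] G.O m (a + 1)),
    (a = 0 → h = 0) ∧ (G.pw m (a + 1) r).toLinearMap =
      (G.cT m).cos.d a ∘ₗ h + h' ∘ₗ (G.cT m).cos.d (a + 1)

variable {G m}

theorem ev_dT {a : ℕ} {g : Fin (a + 1) → G.Pt S} (hg : ∀ i, g i ∈ G.tor m S)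
    (F : G.O m a ⊗[ZMod p] V) :
    G.ev m V g (((G.cT m).cos.d a).rTensor V F) = ∑ l : Fin (a + 2), ((-1 : ZMod p) ^ (l : ℕ)) •
      G.ev m V (df ((Fin.cons 0 g : Fin (a + 2) → _) ∘ l.succAbove)) F := by
  have e : ((G.cT m).cos.d a).rTensor V F = ∑ l : Fin (a + 2), ((-1 : ZMod p) ^ (l : ℕ)) •
      G.ev m V (df ((Fin.cons 0 (G.u m _) : Fin (a + 2) → _) ∘ l.succAbove)) F := by
    change LinearMap.rTensorHom V (∑ _, _) F = _
    rw [map_sum, LinearMap.sum_apply]
    refine Finset.sum_congr rfl fun l _ => ?_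
    rw [map_smul]; rfl
  rw [e, map_sum]
  refine Finset.sum_congr rfl fun l _ => ?_
  rw [map_smul, ev_ev g (h := df ((Fin.cons 0 (G.u m _) : Fin (a + 2) → _) ∘ l.succAbove))
    (tor_df fun i => tor_cons (zero_mem _) (tor_u _) _)]
  congr 3
  funext i
  simp only [df, map_sub, Function.comp]
  rw [map_cons0 hg, map_cons0 hg]

/-- The homogeneous differential of a translation invariant function. -/
theorem d_triv {a : ℕ} (F : G.O m a ⊗[ZMod p] V) :
    (G.cO m V).d a (G.ev m V (df (G.u m (a + 1))) F) =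
      G.ev m V (df (G.u m (a + 2))) (((G.cT m).cos.d a).rTensor V F) := by
  rw [ev_dT (tor_df (tor_u _)), ← ev_u ((G.cO m V).d a _), ev_d (tor_u _)]
  refine Finset.sum_congr rfl fun l _ => ?_
  rw [ev_ev _ (tor_df (tor_u _))]
  congr 3
  funext i
  simp only [df, map_sub, Function.comp]
  have := G.lift_u m (G.u m (a + 2) ∘ l.succAbove) fun i => G.u_tor m _ _
  rw [this, this]
  change _ = (Fin.cons 0 (df (G.u m (a + 2))) : Fin (a + 2) → _) _ -
    (Fin.cons 0 (df (G.u m (a + 2))) : Fin (a + 2) → _) _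
  rw [cons_df, cons_df]
  simp

theorem ev_pw {a : ℕ} (r : ℕ) {g : Fin a → G.Pt S} (hg : ∀ i, g i ∈ G.tor m S)
    (F : G.O m a ⊗[ZMod p] V) :
    G.ev m V g ((G.pw m a r).toLinearMap.rTensor V F) = G.ev m V (fun i => p ^ r • g i) F := by
  change G.ev m V g (G.ev m V _ F) = _
  rw [ev_ev _ fun i => nsmul_mem (tor_u _ i) _]
  simp only [map_nsmul, G.lift_u m g hg]

end GF

end P261.PC
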