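import Vale.Agent.P261Z.PC.Defs

/-! # P261, block P: statements of the two descent steps along the torsor -/

namespace P261.PC

universe u

variable {p : ℕ} {X : ℕ → Type u} [∀ t, AddCommGroup (X t)] [∀ t, Module (ZMod p) (X t)]

/-- Boundaries of a family. -/
def Bd (d : ∀ t, X t →ₗ[ZMod p] X (t + 1)) (N : ∀ t, Submodule (ZMod p) (X t)) :
    ∀ t, Submodule (ZMod p) (X t)
  | 0 => ⊥
  | t + 1 => (N t).map (d t)

/-- The laws of the ambient complex which are used together with a torsor structure. -/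
structure HB (d : ∀ t, X t →ₗ[ZMod p] X (t + 1)) (fr : ∀ t, Module.End (ZMod p) (X t))
    (ae : ℕ → ∀ t, Module.End (ZMod p) (X t)) (N : ℝ → ∀ t, Submodule (ZMod p) (X t))
    (q D : ℝ) : Prop where
  dd : ∀ t x, d (t + 1) (d t x) = 0
  inj0 : ∀ x, d 0 x = 0 → x = 0
  fr_d : ∀ t x, fr (t + 1) (d t x) = d t (fr t x)
  ae_fr : ∀ e t x, ae e t (fr t x) = fr t (ae e t x)
  ae_N : ∀ e b t, ∀ x ∈ N b t, ae e t x ∈ N b t
  mono : ∀ b b', b ≤ b' → ∀ t, N b t ≤ N b' t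
  N_d : ∀ b t, ∀ x ∈ N b t, d t x ∈ N b (t + 1)
  N_fr : ∀ b t, ∀ x ∈ N b t, fr t x ∈ N (q * b) t
  q0 : 0 ≤ q
  D0 : 0 ≤ D

/-- Descent along the torsor when a power of `ae e` acts trivially after a raise by `r`.
The total raise does not depend on `A`. -/
def H3 (p : ℕ) : Prop :=
  ∀ (X : ℕ → Type u) [∀ t, AddCommGroup (X t)] [∀ t, Module (ZMod p) (X t)] (G : GF p)
    (d : ∀ t, X t →ₗ[ZMod p] X (t + 1)) (fr : ∀ t, Module.End (ZMod p) (X t))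
    (ae : ℕ → ∀ t, Module.End (ZMod p) (X t)) (N N0 : ℝ → ∀ t, Submodule (ZMod p) (X t))
    (M A : ℕ) (q D : ℝ), TD G d fr ae N N0 M A D → HB d fr ae N q D →
    ∀ (e μ r t : ℕ) (b c : ℕ → ℝ), 2 ≤ e → A + e + μ ≤ M →
    (∀ i < 2 * t, q ^ (r + t) * b i + D ≤ b (i + 1) ∧ q ^ t * (c i + 2 * D) + D ≤ b (i + 1) ∧
      ∀ s < t, ∀ x ∈ N (b i + D) (s + 1), d _ x = 0 →
        ∃ y ∈ N (c i) s, d s y = (fr _ ^ r) ((ae e _ ^ p ^ μ) x - x)) →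
    ∀ y ∈ N (b 0 - D) t, ∀ b', d t y ∈ N0 b' (t + 1) →
      (fr t ^ (2 * t * (r + t))) y ∈ N0 (b (2 * t) + D) t ⊔ Bd d (N (b (2 * t))) t

/-- Descent along the torsor when the cohomology in lower degrees dies after a shift. -/
def H4 (p : ℕ) : Prop :=
  ∀ (X : ℕ → Type u) [∀ t, AddCommGroup (X t)] [∀ t, Module (ZMod p) (X t)] (G : GF p)
    (d : ∀ t, X t →ₗ[ZMod p] X (t + 1)) (fr : ∀ t, Module.End (ZMod p) (X t))
    (ae : ℕ → ∀ t, Module.End (ZMod p) (X t)) (N N0 : ℝ → ∀ t, Submodule (ZMod p) (X t))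
    (M A : ℕ) (q D : ℝ), TD G d fr ae N N0 M A D → HB d fr ae N q D → A ≤ M →
    ∀ (t : ℕ) (b : ℕ → ℝ),
    (∀ i < 2 * t, b i + D ≤ b (i + 1) ∧
      ∀ s < t, ∀ x ∈ N (b i) (s + 1), d _ x = 0 → ∃ y ∈ N (b (i + 1) - D) s, d s y = x) →
    ∀ y ∈ N (b 0 - D) t, ∀ b', d t y ∈ N0 b' (t + 1) →
      y ∈ N0 (b (2 * t) + D) t ⊔ Bd d (N (b (2 * t))) t

end P261.PC
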